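import Vale.Agent.P192.Bdl.B1

set_option linter.all false

/-! Layers of the distance from a set in a `G`-set: the gluing argument. -/

namespace Vale.Agent.P192.H593

open Vale.Agent.P192 Function

universe u v

variable {α : Type} [DecidableEq α] {X : Type u} [MulAction (FreeGroup α) X]

theorem hom_sh_iter {k r : ℕ} (D : Glue α X k r) (g : FreeGroup α) (n : ℕ) (q : D.Om) :
    D.hom g ((D.sh)^[n] q) = (D.sh)^[n] (D.hom g q) := by
  induction n with
  | zero => rfl
  | succ n ih => rw [iterate_succ_apply', iterate_succ_apply', D.hom_shift, ih]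

/-- no element shifts a point by a positive amount, if some positive power of it is trivial -/
theorem no_shift_pow {k r : ℕ} (D : Glue α X k r) (g : FreeGroup α) (m s : ℕ) (hm : 0 < m)
    (hs : 0 < s) (hg : D.hom (g ^ m) = 1) (p : D.Om) : D.hom g p ≠ (D.sh)^[s] p := by
  intro h
  have key : ∀ j : ℕ, D.hom (g ^ j) p = (D.sh)^[j * s] p := by
    intro j
    induction j with
    | zero => simp
    | succ j ih =>
      rw [pow_succ', map_mul, Equiv.Perm.mul_apply, ih, hom_sh_iter, h, ← iterate_add_apply]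
      congr 1
      ring
  have h1 := key m
  rw [hg] at h1
  have h2 := congrArg (fun q : D.Om => q.1.2) h1
  simp only [Equiv.Perm.one_apply] at h2
  rw [D.sh_iter] at h2
  have h3 : (0 : ℤ) < ((m * s : ℕ) : ℤ) := by exact_mod_cast Nat.mul_pos hm hs
  simp only at h2
  omega

/-- the points at distance at most `n` from `Z` -/
def Nb (α : Type) [DecidableEq α] {X : Type u} [MulAction (FreeGroup α) X] (Z : Set X) (n : ℕ) :
    Set X := {y | ∃ z ∈ Z, ∃ g : FreeGroup α, g.norm ≤ n ∧ g • z = y}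

theorem Nb_smul {Z : Set X} {n p : ℕ} {y : X} (hy : y ∈ Nb α Z n) (g : FreeGroup α)
    (hg : g.norm ≤ p) : g • y ∈ Nb α Z (n + p) := by
  obtain ⟨z, hz, h, hh, rfl⟩ := hy
  refine ⟨z, hz, g * h, ?_, mul_smul _ _ _⟩
  have := FreeGroup.norm_mul_le g h
  omega

theorem Nb_mono {Z : Set X} {m n : ℕ} (h : m ≤ n) : Nb α Z m ⊆ Nb α Z n := by
  rintro y ⟨z, hz, g, hg, rfl⟩
  exact ⟨z, hz, g, hg.trans h, rfl⟩

theorem Nb_zero {Z : Set X} : Z ⊆ Nb α Z 0 := fun z hz => ⟨z, hz, 1, by simp, one_smul _ _⟩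

theorem Nb_pred {Z : Set X} {n : ℕ} {y : X} (hy : y ∈ Nb α Z (n + 1)) (hy' : y ∉ Nb α Z n) :
    ∃ l : α × Bool, lt l • y ∈ Nb α Z n := by
  obtain ⟨z, hz, g, hg, rfl⟩ := hy
  have h1 : g.toWord.length = g.norm := rfl
  rcases hw : g.toWord with _ | ⟨l, L⟩
  · exfalso
    apply hy'
    refine ⟨z, hz, g, ?_, rfl⟩
    rw [← h1, hw]
    simp
  · refine ⟨(l.1, !l.2), z, hz, FreeGroup.mk L, ?_, ?_⟩
    · have h2 := FreeGroup.norm_mk_le (L₁ := L)
      rw [hw, List.length_cons] at h1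
      omega
    · have h3 : g = lt l * FreeGroup.mk L := by
        rw [← mk_cons, ← hw, FreeGroup.mk_toWord]
      rw [h3, mul_smul, Glue.lt_inv_smul]

theorem IB_Nb {Z : Set X} {n : ℕ} {y : X} (hy : y ∈ IB (α := α) (Nb α Z (n + 1))) :
    y ∉ Nb α Z n := by
  intro h
  obtain ⟨h1, l, h2⟩ := hy
  exact h2 (Nb_smul h (lt l) (lt_norm l))

theorem IB_nonempty {Z : Set X} (hZ : Z.Nonempty) (htr : ∀ x y : X, ∃ g : FreeGroup α, g • x = y)
    {n : ℕ} (hn : Nb α Z n ≠ Set.univ) : (IB (α := α) (Nb α Z n)).Nonempty := by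
  obtain ⟨z, hz⟩ := hZ
  obtain ⟨y, hy⟩ := (Set.ne_univ_iff_exists_notMem _).1 hn
  obtain ⟨g, hg⟩ := htr z y
  obtain ⟨w, -, hw⟩ := exists_suffix (Nb α Z n) z (Nb_mono (Nat.zero_le n) (Nb_zero hz)) g.toWord
    (by rw [FreeGroup.mk_toWord, hg]; exact hy)
  exact ⟨_, hw⟩

/-- two far layers with isomorphic boundaries cannot exist -/
theorem glue_false (R : Set (FreeGroup α)) (r K : ℕ) (hr : 2 ≤ r)
    (hR : ∀ w ∈ R, w.norm ≤ r)
    (htors : ∀ g : FreeGroup α, ∃ m, 0 < m ∧ g ^ m ∈ Subgroup.normalClosure R)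
    (hRX : ∀ w ∈ R, ∀ x : X, w • x = x) (Z : Set X) (i j : ℕ) (hij : i + r + 1 ≤ j)
    (β γ : Fin K → X) (hβ : Set.range β = IB (α := α) (Nb α Z j))
    (hγ : Set.range γ = IB (α := α) (Nb α Z i)) (hne : (IB (α := α) (Nb α Z j)).Nonempty)
    (type1 : ∀ a b (g : FreeGroup α), g.norm ≤ 2 * r → (g • β a = β b ↔ g • γ a = γ b))
    (type2 : ∀ a (g : FreeGroup α), g.norm ≤ r → (g • β a ∈ Nb α Z j ↔ g • γ a ∈ Nb α Z i)) :
    False := by
  obtain ⟨j, rfl⟩ : ∃ j', j = j' + 1 := ⟨j - 1, by omega⟩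
  have hβm : ∀ a, β a ∈ IB (α := α) (Nb α Z (j + 1)) := fun a => by rw [← hβ]; exact ⟨a, rfl⟩
  have hγm : ∀ a, γ a ∈ IB (α := α) (Nb α Z i) := fun a => by rw [← hγ]; exact ⟨a, rfl⟩
  let D : Glue α X K r :=
    { A := Nb α Z (j + 1)
      B := Nb α Z i
      β := β
      γ := γ
      r2 := hr
      hBA := Nb_mono (by omega)
      hβ := by
        intro x hx _ l hl
        have : x ∈ Set.range β := by rw [hβ]; exact ⟨hx, l, hl⟩
        exact this
      hγ := by
        intro x hx l _ hl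
        have : x ∈ Set.range γ := by rw [hγ]; exact ⟨hx, l, hl⟩
        exact this
      hβA := fun a => (hβm a).1
      hγB := fun a => (hγm a).1
      far1 := by
        intro a g hg h
        have h1 := Nb_smul (p := r) h g⁻¹ (by rw [FreeGroup.norm_inv_eq]; exact hg)
        rw [inv_smul_smul] at h1
        exact IB_Nb (hβm a) (Nb_mono (by omega) h1)
      far2 := by
        intro a g hg
        exact Nb_mono (by omega) (Nb_smul (hγm a).1 g hg)
      type1 := type1
      type2 := type2 }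
  have desc : ∀ n ≤ j + 1, ∀ y ∈ Nb α Z n, y ∉ Nb α Z i →
      ∃ b, ∀ t : ℤ, D.Orb (y, t) (D.β b, t + 1) := by
    intro n
    induction n with
    | zero =>
      intro _ y hy hy'
      exact absurd (Nb_mono (Nat.zero_le i) hy) hy'
    | succ n ih =>
      intro hn y hy hy'
      by_cases hyn : y ∈ Nb α Z n
      · exact ih (by omega) y hyn hy'
      · obtain ⟨l, hl⟩ := Nb_pred hy hyn
        have hyA : y ∈ D.A := Nb_mono hn hy
        have hyB : y ∉ D.B := hy'
        have hw : y ∈ D.nb 0 := Or.inl ⟨hyA, hyB⟩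
        by_cases hB : lt l • y ∈ Nb α Z i
        · obtain ⟨b, hb⟩ := D.hγ (lt l • y) hB (l.1, !l.2)
            (by rw [Glue.lt_inv_smul]; exact hyA) (by rw [Glue.lt_inv_smul]; exact hyB)
          refine ⟨b, fun t => ?_⟩
          have hw' : lt l • y ∈ D.nb 0 := Or.inr (Or.inr ⟨b, 1, by simp, by rw [one_smul, hb]⟩)
          have h1 := D.Orb_step hw hw' t
          rw [D.ch_W t hyA hyB, ← hb, D.ch_γ] at h1
          exact h1
        · obtain ⟨b, hb⟩ := ih (by omega) _ hl hB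
          refine ⟨b, fun t => ?_⟩
          have hA' : lt l • y ∈ D.A := Nb_mono (by omega) hl
          have hw' : lt l • y ∈ D.nb 0 := Or.inl ⟨hA', hB⟩
          have h1 := D.Orb_step hw hw' t
          rw [D.ch_W t hyA hyB, D.ch_W t hA' hB] at h1
          exact Glue.Orb.trans D h1 (hb t)
  have hstep : ∀ a : Fin K, ∃ b, ∀ t : ℤ, D.Orb (D.β a, t) (D.β b, t + 1) := by
    intro a
    refine desc (j + 1) le_rfl _ (hβm a).1 ?_
    intro h
    exact IB_Nb (hβm a) (Nb_mono (by omega) h)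
  choose f hf using hstep
  have hiter : ∀ (m : ℕ) (a : Fin K) (t : ℤ), D.Orb (D.β a, t) (D.β (f^[m] a), t + m) := by
    intro m
    induction m with
    | zero =>
      intro a t
      simpa using Glue.Orb.refl D (D.β_Om a t)
    | succ m ih =>
      intro a t
      rw [iterate_succ_apply']
      have h1 := hf (f^[m] a) (t + m)
      have h2 := Glue.Orb.trans D (ih a t) h1
      have h3 : t + ((m + 1 : ℕ) : ℤ) = t + m + 1 := by push_cast; ring
      rw [h3]
      exact h2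
  obtain ⟨x0, hx0⟩ := hne
  obtain ⟨a0, -⟩ : ∃ a, β a = x0 := by
    have : x0 ∈ Set.range β := by rw [hβ]; exact hx0
    exact this
  obtain ⟨p, q, hpq, hfpq⟩ : ∃ p q : ℕ, p < q ∧ f^[p] a0 = f^[q] a0 := by
    obtain ⟨p, q, hne, h⟩ := Finite.exists_ne_map_eq_of_infinite (fun m : ℕ => f^[m] a0)
    rcases lt_or_gt_of_ne hne with h' | h'
    · exact ⟨p, q, h', h⟩
    · exact ⟨q, p, h', h.symm⟩
  set c := f^[p] a0 with hc
  have h1 := hiter (q - p) c 0
  have h2 : f^[q - p] c = c := by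
    rw [hc, ← iterate_add_apply, Nat.sub_add_cancel hpq.le]
    exact hfpq.symm
  rw [h2] at h1
  obtain ⟨hp', hq', g, hg⟩ := h1
  obtain ⟨m, hm, hgm⟩ := htors g
  have hker : Subgroup.normalClosure R ≤ D.hom.ker := by
    apply Subgroup.normalClosure_le_normal
    intro w hw
    exact D.hom_rel w (hR w hw) (hRX w hw)
  apply no_shift_pow D g m (q - p) hm (by omega) (hker hgm) ⟨_, hp'⟩
  rw [hg]
  apply Subtype.ext
  rw [D.sh_iter]

end Vale.Agent.P192.H593
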