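import Vale.Agent.P192.H593.Core

set_option linter.all false

/-! Counting the small layers. -/

namespace Vale.Agent.P192.H593

open Vale.Agent.P192 Function

universe u v

section

variable {X : Type u}

open Classical in
/-- the label of a point -/
noncomputable def lab {K : ℕ} (β : Fin K → X) (y : X) : Option (Fin K) :=
  if h : ∃ b, β b = y then some h.choose else none

theorem lab_eq {K : ℕ} (β : Fin K → X) (y : X) (b : Fin K) :
    lab β y = lab β (β b) ↔ y = β b := by
  classical
  constructor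
  · intro h
    have hb : ∃ c, β c = β b := ⟨b, rfl⟩
    have h1 : lab β (β b) = some hb.choose := by
      unfold lab
      rw [dif_pos hb]
    rw [h1] at h
    unfold lab at h
    by_cases hy : ∃ c, β c = y
    · rw [dif_pos hy] at h
      have h2 : hy.choose = hb.choose := Option.some.inj h
      rw [← hy.choose_spec, h2, hb.choose_spec]
    · rw [dif_neg hy] at h
      exact absurd h (by simp)
  · intro h
    rw [h]

end

variable {α : Type} [DecidableEq α] {X : Type u} [MulAction (FreeGroup α) X]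

/-- the isomorphism types of boundaries -/
abbrev Typ (α : Type) [DecidableEq α] (r K : ℕ) : Type :=
  (Fin K → {g : FreeGroup α // g.norm ≤ 2 * r} → Option (Fin K)) ×
    (Fin K → {g : FreeGroup α // g.norm ≤ r} → Prop)

/-- exponent in the bound for the number of types -/
noncomputable def mm (α : Type) [DecidableEq α] (r : ℕ) : ℕ :=
  Nat.card {g : FreeGroup α // g.norm ≤ 2 * r} + Nat.card {g : FreeGroup α // g.norm ≤ r}

theorem card_Typ [Finite α] (r K : ℕ) : Nat.card (Typ α r K) ≤ (K + 2) ^ (mm α r * K) := by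
  unfold Typ mm
  rw [Nat.card_prod, Nat.card_fun, Nat.card_fun, Nat.card_fun, Nat.card_fun, Finite.card_option,
    Nat.card_fin]
  have hP : Nat.card Prop = 2 := by
    rw [Nat.card_eq_fintype_card, Fintype.card_prop]
  rw [hP, add_mul, pow_add, ← pow_mul, ← pow_mul]
  exact Nat.mul_le_mul (Nat.pow_le_pow_left (by omega) _) (Nat.pow_le_pow_left (by omega) _)

theorem count [Finite α] (R : Set (FreeGroup α)) (r K : ℕ) (hr : 2 ≤ r)
    (hR : ∀ w ∈ R, w.norm ≤ r)
    (htors : ∀ g : FreeGroup α, ∃ m, 0 < m ∧ g ^ m ∈ Subgroup.normalClosure R)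
    (hRX : ∀ w ∈ R, ∀ x : X, w • x = x) (htr : ∀ x y : X, ∃ g : FreeGroup α, g • x = y)
    (Z : Set X) (hZ : Z.Nonempty) (J : Finset ℕ)
    (hJ : ∀ t ∈ J, Nb α Z ((r + 1) * t) ≠ Set.univ ∧
      (IB (α := α) (Nb α Z ((r + 1) * t))).encard ≤ K) : J.card ≤ Nat.card (Typ α r K) := by
  classical
  by_contra hcard
  push Not at hcard
  have hex : ∀ t : ℕ, ∃ β : Fin K → X, t ∈ J → Set.range β = IB (α := α) (Nb α Z ((r + 1) * t)) := by
    intro t
    by_cases ht : t ∈ J
    · obtain ⟨β, hβ⟩ := exists_enum (k := K) _ (IB_nonempty hZ htr (hJ t ht).1) (hJ t ht).2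
      exact ⟨β, fun _ => hβ⟩
    · by_cases hK : K = 0
      · subst hK
        exact ⟨fun a => a.elim0, fun h => absurd h ht⟩
      · obtain ⟨z, -⟩ := hZ
        exact ⟨fun _ => z, fun h => absurd h ht⟩
  choose β hβ using hex
  let τ : ℕ → Typ α r K := fun t =>
    (fun a g => lab (β t) (g.1 • β t a), fun a g => g.1 • β t a ∈ Nb α Z ((r + 1) * t))
  have : Fintype (Typ α r K) := Fintype.ofFinite _
  obtain ⟨s, hs, t, ht, hne, hst⟩ := Finset.exists_ne_map_eq_of_card_lt_of_maps_to
    (s := J) (t := (Finset.univ : Finset (Typ α r K))) (f := τ)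
    (by rw [Finset.card_univ, ← Nat.card_eq_fintype_card]; exact hcard)
    (fun _ _ => Finset.mem_coe.2 (Finset.mem_univ _))
  have key : ∀ s ∈ J, ∀ t ∈ J, s < t → τ s = τ t → False := by
    intro s hs t ht hlt hst
    have e1 : ∀ a (g : FreeGroup α) (hg : g.norm ≤ 2 * r),
        lab (β s) (g • β s a) = lab (β t) (g • β t a) := by
      intro a g hg
      exact congrFun (congrFun (congrArg Prod.fst hst) a) ⟨g, hg⟩
    have e2 : ∀ a (g : FreeGroup α) (hg : g.norm ≤ r),
        (g • β s a ∈ Nb α Z ((r + 1) * s)) = (g • β t a ∈ Nb α Z ((r + 1) * t)) := by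
      intro a g hg
      exact congrFun (congrFun (congrArg Prod.snd hst) a) ⟨g, hg⟩
    have e0 : ∀ a, lab (β s) (β s a) = lab (β t) (β t a) := by
      intro a
      have := e1 a 1 (by simp)
      simpa only [one_smul] using this
    refine glue_false R r K hr hR htors hRX Z ((r + 1) * s) ((r + 1) * t) ?_ (β t) (β s)
      (hβ t ht) (hβ s hs) (IB_nonempty hZ htr (hJ t ht).1) ?_ ?_
    · have h1 : s + 1 ≤ t := hlt
      have h2 := Nat.mul_le_mul_left (r + 1) h1
      rw [mul_add, mul_one] at h2
      omega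
    · intro a b g hg
      rw [← lab_eq (β t), ← lab_eq (β s), e1 a g hg, e0 b]
    · intro a g hg
      rw [e2 a g hg]
  rcases lt_or_gt_of_ne hne with h | h
  · exact key s hs t ht h hst
  · exact key t ht s hs h hst.symm

/-- lower bound for the neighbourhoods of a set -/
theorem layers [Finite α] (R : Set (FreeGroup α)) (r : ℕ) (hr : 2 ≤ r)
    (hR : ∀ w ∈ R, w.norm ≤ r)
    (htors : ∀ g : FreeGroup α, ∃ m, 0 < m ∧ g ^ m ∈ Subgroup.normalClosure R)
    (hRX : ∀ w ∈ R, ∀ x : X, w • x = x) (htr : ∀ x y : X, ∃ g : FreeGroup α, g • x = y)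
    (Z : Set X) (hZ : Z.Nonempty) (T K : ℕ) (hT : Nb α Z ((r + 1) * T) ≠ Set.univ) :
    (((T - (K + 2) ^ (mm α r * K)) * (K + 1) : ℕ) : ℕ∞) ≤
      (Nb α Z ((r + 1) * T) \ Z).encard := by
  classical
  have hne : ∀ t ≤ T, Nb α Z ((r + 1) * t) ≠ Set.univ := by
    intro t ht h
    apply hT
    rw [Set.eq_univ_iff_forall] at h ⊢
    exact fun y => Nb_mono (Nat.mul_le_mul_left _ ht) (h y)
  let P : ℕ → Prop := fun t => (IB (α := α) (Nb α Z ((r + 1) * (t + 1)))).encard ≤ K
  -- small layers
  have hsmall : ((Finset.range T).filter P).card ≤ (K + 2) ^ (mm α r * K) := by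
    refine le_trans ?_ (card_Typ (α := α) r K)
    rw [← Finset.card_image_of_injective ((Finset.range T).filter P) (add_left_injective 1)]
    apply count R r K hr hR htors hRX htr Z hZ
    intro t ht
    obtain ⟨s, hs, rfl⟩ := Finset.mem_image.1 ht
    obtain ⟨hs1, hs2⟩ := Finset.mem_filter.1 hs
    exact ⟨hne _ (Finset.mem_range.1 hs1), hs2⟩
  -- large layers
  have hlarge : ∀ t ≤ T, ((((Finset.range t).filter (fun s => ¬ P s)).card * (K + 1) : ℕ) : ℕ∞) ≤
      (Nb α Z ((r + 1) * t) \ Z).encard := by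
    intro t
    induction t with
    | zero => intro _; simp
    | succ t ih =>
      intro ht
      have h1 := ih (by omega)
      have hq : (r + 1) * (t + 1) = ((r + 1) * t + r) + 1 := by ring
      have hsub : (Nb α Z ((r + 1) * t) \ Z) ∪ IB (α := α) (Nb α Z ((r + 1) * (t + 1))) ⊆
          Nb α Z ((r + 1) * (t + 1)) \ Z := by
        rintro y (⟨hy1, hy2⟩ | hy)
        · exact ⟨Nb_mono (Nat.mul_le_mul_left _ (by omega)) hy1, hy2⟩
        · refine ⟨hy.1, fun hyZ => ?_⟩
          rw [hq] at hy
          exact IB_Nb hy (Nb_mono (Nat.zero_le _) (Nb_zero hyZ))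
      have hdis : Disjoint (Nb α Z ((r + 1) * t) \ Z)
          (IB (α := α) (Nb α Z ((r + 1) * (t + 1)))) := by
        rw [Set.disjoint_left]
        rintro y ⟨hy1, -⟩ hy
        rw [hq] at hy
        exact IB_Nb hy (Nb_mono (by omega) hy1)
      have h2 : (Nb α Z ((r + 1) * t) \ Z).encard +
          (IB (α := α) (Nb α Z ((r + 1) * (t + 1)))).encard ≤
          (Nb α Z ((r + 1) * (t + 1)) \ Z).encard := by
        rw [← Set.encard_union_eq hdis]
        exact Set.encard_le_encard hsub
      rw [Finset.range_add_one, Finset.filter_insert]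
      split_ifs with h3
      · exact h1.trans (le_self_add.trans h2)
      · rw [Finset.card_insert_of_notMem (by simp), add_mul, one_mul, Nat.cast_add]
        refine le_trans (add_le_add h1 ?_) h2
        have h4 : ((K : ℕ) : ℕ∞) < (IB (α := α) (Nb α Z ((r + 1) * (t + 1)))).encard := not_le.1 h3
        rw [Nat.cast_add, Nat.cast_one]
        exact Order.add_one_le_of_lt h4
  refine le_trans ?_ (hlarge T le_rfl)
  have h4 : ((Finset.range T).filter P).card +
      ((Finset.range T).filter (fun s => ¬ P s)).card = T := by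
    rw [Finset.card_filter_add_card_filter_not, Finset.card_range]
  exact_mod_cast Nat.mul_le_mul_right (K + 1) (by omega)

end Vale.Agent.P192.H593
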