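import Vale.Agent.P192.H593.Count

set_option linter.all false

/-! Separated chains of sets with small boundaries. -/

namespace Vale.Agent.P192.H593

open Vale.Agent.P192 Function

universe u v

variable {α : Type} [DecidableEq α] {X : Type u} [MulAction (FreeGroup α) X]

/-- two far nested sets with isomorphic boundaries cannot exist -/
theorem glue_false' (R : Set (FreeGroup α)) (r K : ℕ) (hr : 2 ≤ r)
    (hR : ∀ w ∈ R, w.norm ≤ r)
    (htors : ∀ g : FreeGroup α, ∃ m, 0 < m ∧ g ^ m ∈ Subgroup.normalClosure R)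
    (hRX : ∀ w ∈ R, ∀ x : X, w • x = x) (A B : Set X) (hBA : B ⊆ A)
    (hfar : ∀ x ∈ B, ∀ g : FreeGroup α, g.norm ≤ r + 1 → g • x ∈ A)
    (x0 : X) (hx0 : x0 ∈ B) (hconn : ∀ y ∈ A, Conn (α := α) A x0 y)
    (β γ : Fin K → X) (hβ : Set.range β = IB (α := α) A)
    (hγ : Set.range γ = IB (α := α) B) (hne : (IB (α := α) A).Nonempty)
    (type1 : ∀ a b (g : FreeGroup α), g.norm ≤ 2 * r → (g • β a = β b ↔ g • γ a = γ b))
    (type2 : ∀ a (g : FreeGroup α), g.norm ≤ r → (g • β a ∈ A ↔ g • γ a ∈ B)) :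
    False := by
  have hβm : ∀ a, β a ∈ IB (α := α) A := fun a => by rw [← hβ]; exact ⟨a, rfl⟩
  have hγm : ∀ a, γ a ∈ IB (α := α) B := fun a => by rw [← hγ]; exact ⟨a, rfl⟩
  have hfar1 : ∀ a (g : FreeGroup α), g.norm ≤ r → g • β a ∉ B := by
    intro a g hg h
    obtain ⟨h1, l, h2⟩ := hβm a
    apply h2
    have h3 := hfar _ h (lt l * g⁻¹) (by
      have h4 := FreeGroup.norm_mul_le (lt l) g⁻¹
      rw [FreeGroup.norm_inv_eq] at h4
      have := lt_norm l
      omega)
    rw [mul_smul, inv_smul_smul] at h3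
    exact h3
  let D : Glue α X K r :=
    { A := A
      B := B
      β := β
      γ := γ
      r2 := hr
      hBA := hBA
      hβ := by
        intro x hx _ l hl
        have : x ∈ Set.range β := by rw [hβ]; exact ⟨hx, l, hl⟩
        exact this
      hγ := by
        intro x hx l _ hl
        have : x ∈ Set.range γ := by rw [hγ]; exact ⟨hx, l, hl⟩
        exact this
      hβA := fun a => (hβm a).1
      hγB := fun a => (hγm a).1
      far1 := hfar1
      far2 := fun a g hg => hfar _ (hγm a).1 g (by omega)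
      type1 := type1
      type2 := type2 }
  have desc : ∀ y, Conn (α := α) A x0 y → y ∈ A ∧ (y ∉ B →
      ∃ b, ∀ t : ℤ, D.Orb (y, t) (D.β b, t + 1)) := by
    intro y hy
    induction hy with
    | refl => exact ⟨hBA hx0, fun h => absurd hx0 h⟩
    | @tail z y _ hst ih =>
      obtain ⟨hzA, hyA, l, hl⟩ := hst
      refine ⟨hyA, fun hyB => ?_⟩
      have hyz : lt (l.1, !l.2) • y = z := by rw [← hl, Glue.lt_inv_smul]
      have hw : y ∈ D.nb 0 := Or.inl ⟨hyA, hyB⟩
      by_cases hzB : z ∈ B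
      · obtain ⟨b, hb⟩ := D.hγ z hzB l (by rw [hl]; exact hyA) (by rw [hl]; exact hyB)
        refine ⟨b, fun t => ?_⟩
        have hw' : lt (l.1, !l.2) • y ∈ D.nb 0 :=
          Or.inr (Or.inr ⟨b, 1, by simp, by rw [one_smul, hb, hyz]⟩)
        have h1 := D.Orb_step hw hw' t
        rw [hyz] at h1
        rw [D.ch_W t hyA hyB, ← hb, D.ch_γ] at h1
        exact h1
      · obtain ⟨b, hb⟩ := ih.2 hzB
        refine ⟨b, fun t => ?_⟩
        have hw' : lt (l.1, !l.2) • y ∈ D.nb 0 := Or.inl (by rw [hyz]; exact ⟨hzA, hzB⟩)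
        have h1 := D.Orb_step hw hw' t
        rw [hyz] at h1
        rw [D.ch_W t hyA hyB, D.ch_W t hzA hzB] at h1
        exact Glue.Orb.trans D h1 (hb t)
  have hstep : ∀ a : Fin K, ∃ b, ∀ t : ℤ, D.Orb (D.β a, t) (D.β b, t + 1) := by
    intro a
    refine (desc _ (hconn _ (hβm a).1)).2 ?_
    have := hfar1 a 1 (by simp)
    rwa [one_smul] at this
  choose f hf using hstep
  have hiter : ∀ (m : ℕ) (a : Fin K) (t : ℤ), D.Orb (D.β a, t) (D.β (f^[m] a), t + m) := by
    intro m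
    induction m with
    | zero =>
      intro a t
      simpa using Glue.Orb.refl D (D.β_Om a t)
    | succ m ih =>
      intro a t
      rw [iterate_succ_apply']
      have h1 := hf (f^[m] a) (t + m)
      have h2 := Glue.Orb.trans D (ih a t) h1
      have h3 : t + ((m + 1 : ℕ) : ℤ) = t + m + 1 := by push_cast; ring
      rw [h3]
      exact h2
  obtain ⟨y0, hy0⟩ := hne
  obtain ⟨a0, -⟩ : ∃ a, β a = y0 := by
    have : y0 ∈ Set.range β := by rw [hβ]; exact hy0
    exact this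
  obtain ⟨p, q, hpq, hfpq⟩ : ∃ p q : ℕ, p < q ∧ f^[p] a0 = f^[q] a0 := by
    obtain ⟨p, q, hne, h⟩ := Finite.exists_ne_map_eq_of_infinite (fun m : ℕ => f^[m] a0)
    rcases lt_or_gt_of_ne hne with h' | h'
    · exact ⟨p, q, h', h⟩
    · exact ⟨q, p, h', h.symm⟩
  set c := f^[p] a0 with hc
  have h1 := hiter (q - p) c 0
  have h2 : f^[q - p] c = c := by
    rw [hc, ← iterate_add_apply, Nat.sub_add_cancel hpq.le]
    exact hfpq.symm
  rw [h2] at h1
  obtain ⟨hp', hq', g, hg⟩ := h1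
  obtain ⟨m, hm, hgm⟩ := htors g
  have hker : Subgroup.normalClosure R ≤ D.hom.ker := by
    apply Subgroup.normalClosure_le_normal
    intro w hw
    exact D.hom_rel w (hR w hw) (hRX w hw)
  apply no_shift_pow D g m (q - p) hm (by omega) (hker hgm) ⟨_, hp'⟩
  rw [hg]
  apply Subtype.ext
  rw [D.sh_iter]

/-- counting far nested sets with small boundaries -/
theorem count' [Finite α] (R : Set (FreeGroup α)) (r K : ℕ) (hr : 2 ≤ r)
    (hR : ∀ w ∈ R, w.norm ≤ r)
    (htors : ∀ g : FreeGroup α, ∃ m, 0 < m ∧ g ^ m ∈ Subgroup.normalClosure R)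
    (hRX : ∀ w ∈ R, ∀ x : X, w • x = x) (D : ℕ → Set X) (x0 : X) (J : Finset ℕ)
    (h0 : ∀ i ∈ J, x0 ∈ D i) (hconn : ∀ i ∈ J, ∀ y ∈ D i, Conn (α := α) (D i) x0 y)
    (hne : ∀ i ∈ J, (IB (α := α) (D i)).Nonempty)
    (hK : ∀ i ∈ J, (IB (α := α) (D i)).encard ≤ K)
    (hfar : ∀ i ∈ J, ∀ j ∈ J, i < j → ∀ x ∈ D i, ∀ g : FreeGroup α, g.norm ≤ r + 1 →
      g • x ∈ D j) : J.card ≤ Nat.card (Typ α r K) := by
  classical
  by_contra hcard
  push Not at hcard
  have hex : ∀ t : ℕ, ∃ β : Fin K → X, t ∈ J → Set.range β = IB (α := α) (D t) := by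
    intro t
    by_cases ht : t ∈ J
    · obtain ⟨β, hβ⟩ := exists_enum (k := K) _ (hne t ht) (hK t ht)
      exact ⟨β, fun _ => hβ⟩
    · exact ⟨fun _ => x0, fun h => absurd h ht⟩
  choose β hβ using hex
  let τ : ℕ → Typ α r K := fun t =>
    (fun a g => lab (β t) (g.1 • β t a), fun a g => g.1 • β t a ∈ D t)
  have : Fintype (Typ α r K) := Fintype.ofFinite _
  obtain ⟨s, hs, t, ht, hne', hst⟩ := Finset.exists_ne_map_eq_of_card_lt_of_maps_to
    (s := J) (t := (Finset.univ : Finset (Typ α r K))) (f := τ)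
    (by rw [Finset.card_univ, ← Nat.card_eq_fintype_card]; exact hcard)
    (fun _ _ => Finset.mem_coe.2 (Finset.mem_univ _))
  have key : ∀ s ∈ J, ∀ t ∈ J, s < t → τ s = τ t → False := by
    intro s hs t ht hlt hst
    have e1 : ∀ a (g : FreeGroup α) (hg : g.norm ≤ 2 * r),
        lab (β s) (g • β s a) = lab (β t) (g • β t a) := by
      intro a g hg
      exact congrFun (congrFun (congrArg Prod.fst hst) a) ⟨g, hg⟩
    have e2 : ∀ a (g : FreeGroup α) (hg : g.norm ≤ r),
        (g • β s a ∈ D s) = (g • β t a ∈ D t) := by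
      intro a g hg
      exact congrFun (congrFun (congrArg Prod.snd hst) a) ⟨g, hg⟩
    have e0 : ∀ a, lab (β s) (β s a) = lab (β t) (β t a) := by
      intro a
      have := e1 a 1 (by simp)
      simpa only [one_smul] using this
    refine glue_false' R r K hr hR htors hRX (D t) (D s) ?_ (hfar s hs t ht hlt) x0 (h0 s hs)
      (hconn t ht) (β t) (β s) (hβ t ht) (hβ s hs) (hne t ht) ?_ ?_
    · intro x hx
      have := hfar s hs t ht hlt x hx 1 (by simp)
      rwa [one_smul] at this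
    · intro a b g hg
      rw [← lab_eq (β t), ← lab_eq (β s), e1 a g hg, e0 b]
    · intro a g hg
      rw [e2 a g hg]
  rcases lt_or_gt_of_ne hne' with h | h
  · exact key s hs t ht h hst
  · exact key t ht s hs h hst.symm

/-- separated chains -/
theorem cutsF [Finite α] (R : Set (FreeGroup α)) (r K q : ℕ) (hr : 2 ≤ r)
    (hR : ∀ w ∈ R, w.norm ≤ r)
    (htors : ∀ g : FreeGroup α, ∃ m, 0 < m ∧ g ^ m ∈ Subgroup.normalClosure R)
    (hRX : ∀ w ∈ R, ∀ x : X, w • x = x) (htr : ∀ x y : X, ∃ g : FreeGroup α, g • x = y)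
    (C : ℕ → Set X) (L : ℕ) (h0 : (C 0).Nonempty) (hL : C L ≠ Set.univ)
    (hmono : ∀ i j, i ≤ j → j ≤ L → C i ⊆ C j)
    (hstep : ∀ i, i + q ≤ L → ∀ x ∈ C i, ∀ l : α × Bool, lt l • x ∈ C (i + q))
    (J : Finset ℕ) (hJ : ∀ i ∈ J, i ≤ L ∧ (IB (α := α) (C i)).encard ≤ K) :
    J.card ≤ (q * (r + 1) + 1) * (K + 2) ^ (mm α r * K) := by
  classical
  obtain ⟨x0, hx0⟩ := h0
  set D : ℕ → Set X := fun i => {y | y ∈ C i ∧ Conn (α := α) (C i) x0 y} with hD
  have hx0C : ∀ i ≤ L, x0 ∈ C i := fun i hi => hmono 0 i (Nat.zero_le i) hi hx0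
  have hx0D : ∀ i ≤ L, x0 ∈ D i := fun i hi => ⟨hx0C i hi, Relation.ReflTransGen.refl⟩
  have hDext : ∀ i, ∀ y ∈ D i, ∀ l : α × Bool, lt l • y ∈ C i → lt l • y ∈ D i := by
    intro i y hy l hl
    exact ⟨hl, hy.2.tail ⟨hy.1, hl, l, rfl⟩⟩
  have hIB : ∀ i, IB (α := α) (D i) ⊆ IB (α := α) (C i) := by
    rintro i y ⟨hy, l, hl⟩
    exact ⟨hy.1, l, fun h => hl (hDext i y hy l h)⟩
  have hconn : ∀ i ≤ L, ∀ y ∈ D i, Conn (α := α) (D i) x0 y := by
    intro i hi
    have key : ∀ y, Conn (α := α) (C i) x0 y → y ∈ D i ∧ Conn (α := α) (D i) x0 y := by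
      intro y hy
      induction hy with
      | refl => exact ⟨hx0D i hi, Relation.ReflTransGen.refl⟩
      | @tail z y _ hst ih =>
        obtain ⟨h1, h2, l, rfl⟩ := hst
        have h3 := hDext i z ih.1 l h2
        exact ⟨h3, ih.2.tail ⟨ih.1, h3, l, rfl⟩⟩
    exact fun y hy => (key y hy.2).2
  have hDmono : ∀ i j, i ≤ j → j ≤ L → D i ⊆ D j := by
    intro i j hij hj y hy
    refine ⟨hmono i j hij hj hy.1, ?_⟩
    exact Relation.ReflTransGen.mono
      (fun a b hab => ⟨hmono i j hij hj hab.1, hmono i j hij hj hab.2.1, hab.2.2⟩) _ _ hy.2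
  have hDstep : ∀ i, i + q ≤ L → ∀ y ∈ D i, ∀ l : α × Bool, lt l • y ∈ D (i + q) := by
    intro i hi y hy l
    exact hDext _ _ (hDmono i (i + q) (by omega) hi hy) l (hstep i hi y hy.1 l)
  have hDfarL : ∀ (W : List (α × Bool)) (i : ℕ), i + q * W.length ≤ L → ∀ y ∈ D i,
      FreeGroup.mk W • y ∈ D (i + q * W.length) := by
    intro W
    induction W with
    | nil =>
      intro i _ y hy
      have h1 : (FreeGroup.mk [] : FreeGroup α) = 1 := rfl
      rw [h1, one_smul]
      simpa using hy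
    | cons l W ih =>
      intro i hi y hy
      rw [List.length_cons, Nat.mul_succ, ← Nat.add_assoc] at hi ⊢
      rw [mk_cons, mul_smul]
      exact hDstep _ hi _ (ih i (by omega) y hy) l
  have hDfar : ∀ i j, i + q * (r + 1) ≤ j → j ≤ L → ∀ y ∈ D i, ∀ g : FreeGroup α,
      g.norm ≤ r + 1 → g • y ∈ D j := by
    intro i j hij hj y hy g hg
    have h1 : q * g.toWord.length ≤ q * (r + 1) := Nat.mul_le_mul_left q hg
    have h2 := hDfarL g.toWord i (by omega) y hy
    rw [FreeGroup.mk_toWord] at h2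
    exact hDmono _ j (by omega) hj h2
  have hDne : ∀ i ≤ L, (IB (α := α) (D i)).Nonempty := by
    intro i hi
    obtain ⟨y, hy⟩ := (Set.ne_univ_iff_exists_notMem _).1 hL
    obtain ⟨g, hg⟩ := htr x0 y
    obtain ⟨w, -, hw⟩ := exists_suffix (D i) x0 (hx0D i hi) g.toWord
      (by rw [FreeGroup.mk_toWord, hg]; exact fun h => hy (hmono i L hi le_rfl h.1))
    exact ⟨_, hw⟩
  -- classes modulo `q * (r + 1) + 1`
  set p := q * (r + 1) + 1 with hp
  have hcls : ∀ a ∈ J.image (fun i => i % p),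
      (J.filter (fun i => i % p = a)).card ≤ (K + 2) ^ (mm α r * K) := by
    intro a _
    refine le_trans ?_ (card_Typ (α := α) r K)
    apply count' R r K hr hR htors hRX D x0
    · intro i hi
      exact hx0D i (hJ i (Finset.mem_filter.1 hi).1).1
    · intro i hi
      exact hconn i (hJ i (Finset.mem_filter.1 hi).1).1
    · intro i hi
      exact hDne i (hJ i (Finset.mem_filter.1 hi).1).1
    · intro i hi
      exact (Set.encard_le_encard (hIB i)).trans (hJ i (Finset.mem_filter.1 hi).1).2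
    · intro i hi j hj hij
      obtain ⟨hi1, hi2⟩ := Finset.mem_filter.1 hi
      obtain ⟨hj1, hj2⟩ := Finset.mem_filter.1 hj
      refine hDfar i j ?_ (hJ j hj1).1
      have h1 : p ∣ j - i := (Nat.modEq_iff_dvd' hij.le).1 (hi2.trans hj2.symm)
      have h2 := Nat.le_of_dvd (by omega) h1
      omega
  have h1 := Finset.card_le_mul_card_image J _ hcls
  have h2 : (J.image (fun i => i % p)).card ≤ p := by
    calc (J.image (fun i => i % p)).card ≤ (Finset.range p).card := by
          apply Finset.card_le_card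
          intro a ha
          obtain ⟨i, -, rfl⟩ := Finset.mem_image.1 ha
          exact Finset.mem_range.2 (Nat.mod_lt _ (by omega))
      _ = p := Finset.card_range p
  calc J.card ≤ (K + 2) ^ (mm α r * K) * (J.image (fun i => i % p)).card := h1
    _ ≤ (K + 2) ^ (mm α r * K) * p := Nat.mul_le_mul_left _ h2
    _ = p * (K + 2) ^ (mm α r * K) := mul_comm _ _

end Vale.Agent.P192.H593
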