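import Mathlib.Algebra.Group.Action.Defs
import Mathlib.Algebra.BigOperators.Group.List.Defs
import Mathlib.Data.Set.Operations

/-! Neighbourhoods in Schreier graphs. -/

namespace Vale.Agent.P192.H593

universe u v

/-- The `n`-neighbourhood of the set `Z` in the Schreier graph of the `G`-set `X` with respect to
`S`: the points which are reached from points of `Z` by at most `n` steps, each of them with an
element of `S` or the inverse of an element of `S`. -/
def nhd {G : Type v} {X : Type u} [Group G] [MulAction G X] (S : Set G) (Z : Set X) (n : ℕ) :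
    Set X :=
  {y | ∃ z ∈ Z, ∃ w : List G, (∀ s ∈ w, s ∈ S ∨ s⁻¹ ∈ S) ∧ w.length ≤ n ∧ w.prod • z = y}

end Vale.Agent.P192.H593
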