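import Vale.Agent.P192.H593.Count
import Vale.Agent.P192.H593.Defs
import Mathlib.Analysis.SpecialFunctions.Log.Basic
import Mathlib.Analysis.Complex.ExponentialBounds

set_option linter.all false

/-! The effective growth gap. -/

namespace Vale.Agent.P192.H593

open Vale.Agent.P192 Function

universe u v

theorem group_layers (G : Type v) [Group G] [Group.IsFinitelyPresented G] (hG : IsMulTorsion G)
    (S : Set G) (hS : Subgroup.closure S = ⊤) :
    ∃ q m : ℕ, 1 ≤ q ∧ 1 ≤ m ∧ ∀ (X : Type u) [MulAction G X] [MulAction.IsPretransitive G X]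
      (Z : Set X), Z.Nonempty → ∀ n K : ℕ, nhd S Z n ≠ Set.univ →
        (((n / q - (K + 2) ^ (m * K)) * (K + 1) : ℕ) : ℕ∞) ≤ (nhd S Z n \ Z).encard := by
  obtain ⟨N, φ, hφ, R, hRfin, hRker⟩ := ‹Group.IsFinitelyPresented G›.out
  obtain ⟨r0, hr0⟩ : ∃ r0, ∀ w ∈ R, w.norm ≤ r0 := by
    obtain ⟨b, hb⟩ := (hRfin.image FreeGroup.norm).bddAbove
    exact ⟨b, fun w hw => hb ⟨w, hw, rfl⟩⟩
  have htors : ∀ g : FreeGroup (Fin N), ∃ m, 0 < m ∧ g ^ m ∈ Subgroup.normalClosure R := by
    intro g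
    obtain ⟨m, hm, hm'⟩ := isOfFinOrder_iff_pow_eq_one.1 (hG (φ g))
    refine ⟨m, hm, ?_⟩
    rw [hRker, MonoidHom.mem_ker, map_pow, hm']
  choose W hW1 hW2 using fun l : Fin N × Bool => exists_list S hS (φ (lt l))
  obtain ⟨c0, hc0⟩ : ∃ c0 : ℕ, ∀ l, (W l).length ≤ c0 := by
    obtain ⟨b, hb⟩ := (Set.finite_range (fun l => (W l).length)).bddAbove
    exact ⟨b, fun l => hb ⟨l, rfl⟩⟩
  set r := max 2 r0 with hr
  refine ⟨(c0 + 1) * (r + 1), mm (Fin N) r + 1, Nat.mul_pos (by omega) (by omega), by omega, ?_⟩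
  intro X _ _ Z hZ n K hn
  letI : MulAction (FreeGroup (Fin N)) X := MulAction.compHom X φ
  have hsm : ∀ (g : FreeGroup (Fin N)) (x : X), g • x = φ g • x := fun _ _ => rfl
  have hword : ∀ L : List (Fin N × Bool), ∃ w : List G, (∀ s ∈ w, s ∈ S ∨ s⁻¹ ∈ S) ∧
      w.length ≤ (c0 + 1) * L.length ∧ w.prod = φ (FreeGroup.mk L) := by
    intro L
    induction L with
    | nil =>
      refine ⟨[], by simp, by simp, ?_⟩
      have h1 : (FreeGroup.mk [] : FreeGroup (Fin N)) = 1 := rfl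
      rw [h1, map_one, List.prod_nil]
    | cons l L ih =>
      obtain ⟨w, h1, h2, h3⟩ := ih
      refine ⟨W l ++ w, ?_, ?_, ?_⟩
      · intro s hs
        rcases List.mem_append.1 hs with h | h
        · exact hW1 l s h
        · exact h1 s h
      · rw [List.length_append, List.length_cons]
        have := hc0 l
        calc (W l).length + w.length ≤ (c0 + 1) + (c0 + 1) * L.length := by omega
          _ = (c0 + 1) * (L.length + 1) := by ring
      · rw [List.prod_append, hW2, h3, mk_cons, map_mul]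
  have hsub : ∀ p, Nb (Fin N) Z p ⊆ nhd S Z ((c0 + 1) * p) := by
    rintro p y ⟨z, hz, g, hg, rfl⟩
    obtain ⟨w, h1, h2, h3⟩ := hword g.toWord
    refine ⟨z, hz, w, h1, h2.trans (Nat.mul_le_mul_left _ hg), ?_⟩
    rw [h3, FreeGroup.mk_toWord, hsm]
  set T := n / ((c0 + 1) * (r + 1)) with hT
  have hT1 : (c0 + 1) * ((r + 1) * T) ≤ n := by
    rw [← mul_assoc]
    exact Nat.mul_div_le n _
  have hmono : nhd S Z ((c0 + 1) * ((r + 1) * T)) ⊆ nhd S Z n := by
    rintro y ⟨z, hz, w, h1, h2, h3⟩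
    exact ⟨z, hz, w, h1, h2.trans hT1, h3⟩
  have hNb : Nb (Fin N) Z ((r + 1) * T) ≠ Set.univ := by
    intro h
    apply hn
    rw [Set.eq_univ_iff_forall] at h ⊢
    exact fun y => hmono (hsub _ (h y))
  have hmain := layers R r (le_max_left _ _) (fun w hw => (hr0 w hw).trans (le_max_right _ _))
    htors (X := X) (by
      intro w hw x
      rw [hsm]
      have : w ∈ φ.ker := by rw [← hRker]; exact Subgroup.subset_normalClosure hw
      rw [MonoidHom.mem_ker.1 this, one_smul]) (by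
      intro x y
      obtain ⟨g, hg⟩ := MulAction.exists_smul_eq G x y
      obtain ⟨h, rfl⟩ := hφ g
      exact ⟨h, hg⟩) Z hZ T K hNb
  refine le_trans ?_ (hmain.trans (Set.encard_le_encard ?_))
  · have h1 : (K + 2) ^ (mm (Fin N) r * K) ≤ (K + 2) ^ ((mm (Fin N) r + 1) * K) :=
      Nat.pow_le_pow_right (by omega) (Nat.mul_le_mul_right _ (by omega))
    exact_mod_cast Nat.mul_le_mul_right (K + 1) (Nat.sub_le_sub_left h1 T)
  · rintro y ⟨h1, h2⟩
    exact ⟨hmono (hsub _ h1), h2⟩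

theorem one_le_nhd {G : Type v} [Group G] (S : Set G) (hS : Subgroup.closure S = ⊤)
    {X : Type u} [MulAction G X] [MulAction.IsPretransitive G X] (Z : Set X) (hZ : Z.Nonempty)
    (n : ℕ) (hn : 1 ≤ n) (h : nhd S Z n ≠ Set.univ) : 1 ≤ (nhd S Z n \ Z).encard := by
  rw [Set.one_le_encard_iff_nonempty]
  by_contra hemp
  rw [Set.not_nonempty_iff_eq_empty, Set.diff_eq_empty] at hemp
  have h0 : ∀ w : List G, (∀ s ∈ w, s ∈ S ∨ s⁻¹ ∈ S) → ∀ z ∈ Z, w.prod • z ∈ Z := by
    intro w hw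
    induction w with
    | nil => intro z hz; simpa using hz
    | cons s w ih =>
      intro z hz
      rw [List.prod_cons, mul_smul]
      have h1 := ih (fun t ht => hw t (by simp [ht])) z hz
      apply hemp
      exact ⟨_, h1, [s], by simpa using hw s (by simp), by simpa using hn, by simp⟩
  apply h
  rw [Set.eq_univ_iff_forall]
  intro y
  obtain ⟨z, hz⟩ := hZ
  obtain ⟨g, rfl⟩ := MulAction.exists_smul_eq G z y
  obtain ⟨w, hw, rfl⟩ := exists_list S hS g
  exact ⟨_, h0 w hw z hz, [], by simp, by simp, by simp⟩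

theorem exp_four : Real.exp 4 ≤ 55 := by
  have h1 : Real.exp 4 = (Real.exp 1) ^ 4 := by rw [← Real.exp_nat_mul]; norm_num
  have h2 := Real.exp_one_lt_d9
  have h3 := Real.exp_pos 1
  rw [h1]
  calc (Real.exp 1) ^ 4 ≤ (2.7182818286 : ℝ) ^ 4 := pow_le_pow_left₀ h3.le h2.le 4
    _ ≤ 55 := by norm_num

theorem numeric (q m : ℕ) (hq : 1 ≤ q) (hm : 1 ≤ m) : ∃ c : ℝ, 0 < c ∧ ∀ n : ℕ, 3 ≤ n →
    ∃ K : ℕ, c * ((n : ℝ) * Real.log n / Real.log (Real.log n)) ≤
      max 1 (((n / q - (K + 2) ^ (m * K)) * (K + 1) : ℕ) : ℝ) := by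
  have hlog3 : 1 < Real.log 3 := by
    rw [Real.lt_log_iff_exp_lt (by norm_num)]
    have := Real.exp_one_lt_d9
    linarith
  have hll3 : 0 < Real.log (Real.log 3) := Real.log_pos hlog3
  set N0 : ℕ := 16 * q ^ 2 + 55 with hN0
  have hN0pos : (0 : ℝ) < N0 := by exact_mod_cast (by omega : 0 < N0)
  have hN0log : 0 < Real.log N0 := Real.log_pos (by exact_mod_cast (by omega : 1 < N0))
  have hqR : (1 : ℝ) ≤ q := by exact_mod_cast hq
  have hmR : (1 : ℝ) ≤ m := by exact_mod_cast hm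
  set c1 : ℝ := 1 / (4 * q * m) with hc1
  set c2 : ℝ := Real.log (Real.log 3) / (N0 * Real.log N0) with hc2
  have hc1p : 0 < c1 := by positivity
  have hc2p : 0 < c2 := by positivity
  refine ⟨min c1 c2, lt_min hc1p hc2p, ?_⟩
  intro n hn
  have hnR : (3 : ℝ) ≤ n := by exact_mod_cast hn
  have hL1 : Real.log 3 ≤ Real.log n := Real.log_le_log (by norm_num) hnR
  have hL : 1 < Real.log n := lt_of_lt_of_le hlog3 hL1
  have hl1 : Real.log (Real.log 3) ≤ Real.log (Real.log n) :=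
    Real.log_le_log (by linarith) hL1
  have hl : 0 < Real.log (Real.log n) := lt_of_lt_of_le hll3 hl1
  have hX0 : 0 ≤ (n : ℝ) * Real.log n / Real.log (Real.log n) := by positivity
  by_cases hnN : n < N0
  · refine ⟨0, le_trans ?_ (le_max_left _ _)⟩
    have h1 : (n : ℝ) * Real.log n / Real.log (Real.log n) ≤
        (N0 * Real.log N0) / Real.log (Real.log 3) := by
      have hnN' : (n : ℝ) ≤ N0 := by exact_mod_cast hnN.le
      have : Real.log n ≤ Real.log N0 := Real.log_le_log (by linarith) hnN'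
      have h2 : (n : ℝ) * Real.log n ≤ N0 * Real.log N0 :=
        mul_le_mul hnN' this (by linarith) hN0pos.le
      exact div_le_div₀ (by positivity) h2 hll3 hl1
    calc min c1 c2 * ((n : ℝ) * Real.log n / Real.log (Real.log n))
        ≤ c2 * ((n : ℝ) * Real.log n / Real.log (Real.log n)) :=
          mul_le_mul_of_nonneg_right (min_le_right _ _) hX0
      _ ≤ c2 * ((N0 * Real.log N0) / Real.log (Real.log 3)) :=
          mul_le_mul_of_nonneg_left h1 hc2p.le
      _ = 1 := by rw [hc2]; field_simp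
  · push Not at hnN
    have hnN' : (N0 : ℝ) ≤ n := by exact_mod_cast hnN
    have hN0' : (N0 : ℝ) = 16 * (q : ℝ) ^ 2 + 55 := by rw [hN0]; push_cast; ring
    have h55 : (55 : ℝ) ≤ n := by nlinarith [sq_nonneg (q : ℝ)]
    have hL4 : 4 ≤ Real.log n := by
      rw [Real.le_log_iff_exp_le (by linarith)]
      exact exp_four.trans h55
    have hl2 : 1 ≤ Real.log (Real.log n) := by
      rw [Real.le_log_iff_exp_le (by linarith)]
      have := Real.exp_one_lt_d9
      linarith
    set L := Real.log n with hLdef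
    set ℓ := Real.log L with hℓdef
    set K : ℕ := ⌊L / (2 * m * ℓ)⌋₊ with hK
    have hden : 0 < 2 * (m : ℝ) * ℓ := by positivity
    have hden2 : 2 ≤ 2 * (m : ℝ) * ℓ := by nlinarith
    have hK1 : (K : ℝ) ≤ L / (2 * m * ℓ) := Nat.floor_le (by positivity)
    have hK2 : L / (2 * m * ℓ) ≤ K + 1 := (Nat.lt_floor_add_one _).le
    have hK3 : (K : ℝ) ≤ L / 2 := hK1.trans (div_le_div_of_nonneg_left (by linarith) (by norm_num) hden2)
    have hK4 : (K : ℝ) + 2 ≤ L := by linarith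
    have hsq : Real.sqrt n = Real.exp (L / 2) := by
      rw [hLdef, Real.exp_half, Real.exp_log (by linarith)]
    have hpow : (((K + 2) ^ (m * K) : ℕ) : ℝ) ≤ Real.sqrt n := by
      rw [hsq]
      push_cast
      have hK2p : (0 : ℝ) < (K : ℝ) + 2 := by positivity
      rw [← Real.exp_log (pow_pos hK2p (m * K)), Real.exp_le_exp, Real.log_pow]
      push_cast
      have h1 : Real.log ((K : ℝ) + 2) ≤ ℓ := Real.log_le_log hK2p hK4
      calc (m : ℝ) * K * Real.log ((K : ℝ) + 2) ≤ (m : ℝ) * K * ℓ :=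
            mul_le_mul_of_nonneg_left h1 (by positivity)
        _ ≤ (m : ℝ) * (L / (2 * m * ℓ)) * ℓ := by
            apply mul_le_mul_of_nonneg_right _ hl.le
            exact mul_le_mul_of_nonneg_left hK1 (by positivity)
        _ = L / 2 := by field_simp
    have hsqrt4 : 4 * (q : ℝ) ≤ Real.sqrt n := by
      apply Real.le_sqrt_of_sq_le
      nlinarith
    have hsqrt1 : 1 ≤ Real.sqrt n := by linarith
    have hnsq : Real.sqrt n * Real.sqrt n = n := Real.mul_self_sqrt (by linarith)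
    have hdiv : (n : ℝ) / q - 1 ≤ ((n / q : ℕ) : ℝ) := by
      have h1 : n < q * (n / q + 1) := by
        have := Nat.lt_mul_div_succ n (by omega : 0 < q)
        simpa using this
      have h2 : (n : ℝ) < q * (((n / q : ℕ) : ℝ) + 1) := by exact_mod_cast h1
      have h3 : (n : ℝ) / q < ((n / q : ℕ) : ℝ) + 1 := by
        rw [div_lt_iff₀ (by linarith)]
        linarith
      linarith
    have hhalf : (n : ℝ) / (2 * q) ≤ ((n / q - (K + 2) ^ (m * K) : ℕ) : ℝ) := by
      have h1 : ((n / q : ℕ) : ℝ) ≤ ((n / q - (K + 2) ^ (m * K) : ℕ) : ℝ) +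
          (((K + 2) ^ (m * K) : ℕ) : ℝ) := by
        exact_mod_cast (le_tsub_add : n / q ≤ n / q - (K + 2) ^ (m * K) + (K + 2) ^ (m * K))
      have h2 : (n : ℝ) / (2 * q) ≥ 2 * Real.sqrt n := by
        rw [ge_iff_le, le_div_iff₀ (by positivity)]
        nlinarith
      have h3 : (n : ℝ) / q = (n : ℝ) / (2 * q) + (n : ℝ) / (2 * q) := by
        field_simp
        ring
      linarith
    refine ⟨K, le_trans ?_ (le_max_right _ _)⟩
    calc min c1 c2 * ((n : ℝ) * L / ℓ) ≤ c1 * ((n : ℝ) * L / ℓ) :=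
          mul_le_mul_of_nonneg_right (min_le_left _ _) hX0
      _ = (n : ℝ) / (2 * q) * (L / (2 * m * ℓ)) := by rw [hc1]; field_simp; ring
      _ ≤ ((n / q - (K + 2) ^ (m * K) : ℕ) : ℝ) * (K + 1) :=
          mul_le_mul hhalf hK2 (by positivity) (by positivity)
      _ = (((n / q - (K + 2) ^ (m * K)) * (K + 1) : ℕ) : ℝ) := by push_cast; ring

/-- the effective growth gap -/
theorem growth (G : Type v) [Group G] [Group.IsFinitelyPresented G] (hG : IsMulTorsion G)
    (S : Set G) (hS : Subgroup.closure S = ⊤) :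
    ∃ c : ℝ, 0 < c ∧ ∀ (X : Type u) [MulAction G X] [MulAction.IsPretransitive G X]
      (Z : Set X), Z.Nonempty → ∀ n : ℕ, 3 ≤ n → nhd S Z n ≠ Set.univ →
        ∀ N : ℕ, (nhd S Z n \ Z).encard ≤ N →
          c * ((n : ℝ) * Real.log n / Real.log (Real.log n)) ≤ N := by
  obtain ⟨q, m, hq, hm, h⟩ := group_layers.{u, v} G hG S hS
  obtain ⟨c, hc, hnum⟩ := numeric q m hq hm
  refine ⟨c, hc, ?_⟩
  intro X _ _ Z hZ n hn hne N hN
  obtain ⟨K, hK⟩ := hnum n hn
  refine hK.trans (max_le ?_ ?_)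
  · have h1 := (one_le_nhd S hS Z hZ n (by omega) hne).trans hN
    exact_mod_cast h1
  · have h1 := (h X Z hZ n K hne).trans hN
    have h2 : (n / q - (K + 2) ^ (m * K)) * (K + 1) ≤ N := by exact_mod_cast h1
    exact_mod_cast h2

end Vale.Agent.P192.H593
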