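import Vale.Agent.P192.H593.Cuts
import Vale.Agent.P192.H593.Growth

set_option linter.all false

/-! Separated chains of sets with small boundaries: groups. -/

namespace Vale.Agent.P192.H593

open Vale.Agent.P192 Function

universe u v

theorem bdry_nonempty {G : Type v} {X : Type u} [Group G] [MulAction G X]
    [MulAction.IsPretransitive G X] (S : Set G) (hS : Subgroup.closure S = ⊤) (C : Set X)
    (h1 : C.Nonempty) (h2 : C ≠ Set.univ) : (bdry S C).Nonempty := by
  obtain ⟨x, hx⟩ := h1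
  obtain ⟨y, hy⟩ := (Set.ne_univ_iff_exists_notMem _).1 h2
  obtain ⟨g, rfl⟩ := MulAction.exists_smul_eq G x y
  obtain ⟨L, hL, rfl⟩ := exists_list S hS g
  obtain ⟨w, -, hw⟩ := exists_suffixG S C x hx L hL hy
  exact ⟨_, hw⟩

theorem cuts (G : Type v) [Group G] [Group.IsFinitelyPresented G] (hG : IsMulTorsion G)
    (S : Set G) (hS : Subgroup.closure S = ⊤) :
    ∃ m : ℕ, ∀ (X : Type u) [MulAction G X] [MulAction.IsPretransitive G X]
      (C : ℕ → Set X) (L k : ℕ), (C 0).Nonempty → C L ≠ Set.univ →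
      (∀ i < L, ∀ x ∈ C i, x ∈ C (i + 1) ∧ ∀ s ∈ S, s • x ∈ C (i + 1) ∧ s⁻¹ • x ∈ C (i + 1)) →
      {i | i ≤ L ∧ (bdry S (C i)).encard ≤ k}.encard ≤ (((k + 2) ^ (m * k) : ℕ) : ℕ∞) := by
  classical
  obtain ⟨N, φ, hφ, R, hRfin, hRker⟩ := ‹Group.IsFinitelyPresented G›.out
  obtain ⟨r0, hr0⟩ : ∃ r0, ∀ w ∈ R, w.norm ≤ r0 := by
    obtain ⟨b, hb⟩ := (hRfin.image FreeGroup.norm).bddAbove
    exact ⟨b, fun w hw => hb ⟨w, hw, rfl⟩⟩
  have htors : ∀ g : FreeGroup (Fin N), ∃ m, 0 < m ∧ g ^ m ∈ Subgroup.normalClosure R := by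
    intro g
    obtain ⟨m, hm, hm'⟩ := isOfFinOrder_iff_pow_eq_one.1 (hG (φ g))
    refine ⟨m, hm, ?_⟩
    rw [hRker, MonoidHom.mem_ker, map_pow, hm']
  choose W hW1 hW2 using fun l : Fin N × Bool => exists_list S hS (φ (lt l))
  obtain ⟨c0, hc0⟩ : ∃ c0 : ℕ, ∀ l, (W l).length ≤ c0 := by
    obtain ⟨b, hb⟩ := (Set.finite_range (fun l => (W l).length)).bddAbove
    exact ⟨b, fun l => hb ⟨l, rfl⟩⟩
  let T : Set G := ⋃ l, (fun w : List G => (w.prod)⁻¹) '' {w | w ∈ (W l).tails}
  have hT : T.Finite := by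
    apply Set.finite_iUnion
    intro l
    exact (List.finite_toSet _).image _
  set r := max 2 r0 with hr
  set p := c0 * (r + 1) + 1 with hp
  set τ := T.ncard + 1 with hτ
  refine ⟨p + mm (Fin N) r * (τ * τ), ?_⟩
  intro X _ _ C L k hC0 hCL hC
  have hmono : ∀ i j, i ≤ j → j ≤ L → C i ⊆ C j := by
    intro i j hij
    induction hij with
    | refl => intro _; exact subset_rfl
    | @step j hij ih =>
      intro hj
      exact (ih (by omega)).trans fun x hx => (hC j (by omega) x hx).1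
  have hne : ∀ i ≤ L, (bdry S (C i)).Nonempty := by
    intro i hi
    apply bdry_nonempty S hS
    · exact hC0.mono (hmono 0 i (Nat.zero_le i) hi)
    · intro h
      apply hCL
      rw [Set.eq_univ_iff_forall] at h ⊢
      exact fun y => hmono i L hi le_rfl (h y)
  rcases Nat.eq_zero_or_pos k with hk0 | hk
  · subst hk0
    have : {i | i ≤ L ∧ (bdry S (C i)).encard ≤ ((0 : ℕ) : ℕ∞)} = ∅ := by
      rw [Set.eq_empty_iff_forall_notMem]
      rintro i ⟨hi, hi'⟩
      have h1 := Set.one_le_encard_iff_nonempty.2 (hne i hi)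
      have h2 := h1.trans hi'
      simp at h2
    rw [this]
    simp
  letI : MulAction (FreeGroup (Fin N)) X := MulAction.compHom X φ
  have hsm : ∀ (g : FreeGroup (Fin N)) (x : X), g • x = φ g • x := fun _ _ => rfl
  let J : Finset ℕ := (Finset.range (L + 1)).filter (fun i => (bdry S (C i)).encard ≤ k)
  have hJset : {i | i ≤ L ∧ (bdry S (C i)).encard ≤ k} = (J : Set ℕ) := by
    ext i
    simp only [J, Finset.coe_filter, Finset.mem_range, Set.mem_setOf_eq]
    constructor
    · rintro ⟨h1, h2⟩; exact ⟨by omega, h2⟩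
    · rintro ⟨h1, h2⟩; exact ⟨by omega, h2⟩
  rw [hJset, Set.encard_coe_eq_coe_finsetCard]
  have hstepL : ∀ (w : List G), (∀ s ∈ w, s ∈ S ∨ s⁻¹ ∈ S) → ∀ i, i + w.length ≤ L → ∀ x ∈ C i,
      w.prod • x ∈ C (i + w.length) := by
    intro w hw
    induction w with
    | nil => intro i _ x hx; simpa using hx
    | cons s w ih =>
      intro i hi x hx
      rw [List.length_cons, ← Nat.add_assoc] at hi ⊢
      rw [List.prod_cons, mul_smul]
      have h1 := ih (fun t ht => hw t (by simp [ht])) i (by omega) x hx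
      have h2 := hC (i + w.length) (by omega) _ h1
      rcases hw s (by simp) with h3 | h3
      · exact (h2.2 s h3).1
      · have := (h2.2 s⁻¹ h3).2
        rwa [inv_inv] at this
  have hmain := cutsF R r (τ * k) c0 (le_max_left _ _) (fun w hw => (hr0 w hw).trans
    (le_max_right _ _)) htors (X := X) (by
      intro w hw x
      rw [hsm]
      have : w ∈ φ.ker := by rw [← hRker]; exact Subgroup.subset_normalClosure hw
      rw [MonoidHom.mem_ker.1 this, one_smul]) (by
      intro x y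
      obtain ⟨g, hg⟩ := MulAction.exists_smul_eq G x y
      obtain ⟨h, rfl⟩ := hφ g
      exact ⟨h, hg⟩) C L hC0 hCL hmono (by
      intro i hi x hx l
      rw [hsm, ← hW2 l]
      have h1 := hc0 l
      exact hmono _ _ (by omega) hi (hstepL (W l) (hW1 l) i (by omega) x hx)) J (by
      intro i hi
      obtain ⟨h1, h2⟩ := Finset.mem_filter.1 hi
      refine ⟨by have := Finset.mem_range.1 h1; omega, ?_⟩
      have hsub : IB (α := Fin N) (C i) ⊆ (fun p : G × X => p.1 • p.2) '' (T ×ˢ bdry S (C i)) := by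
        rintro x ⟨hx, l, hl⟩
        rw [hsm, ← hW2 l] at hl
        obtain ⟨w, hw, hw'⟩ := exists_suffixG S (C i) x hx (W l) (hW1 l) hl
        refine ⟨((w.prod)⁻¹, w.prod • x), ⟨?_, hw'⟩, by simp⟩
        exact Set.mem_iUnion.2 ⟨l, w, hw, rfl⟩
      refine (Set.encard_le_encard hsub).trans ((Set.encard_image_le _ _).trans ?_)
      rw [Set.encard_prod, ← hT.cast_ncard_eq, Nat.cast_mul]
      refine mul_le_mul' ?_ h2
      exact_mod_cast Nat.le_succ _)
  have h1 : J.card ≤ (k + 2) ^ ((p + mm (Fin N) r * (τ * τ)) * k) := by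
    refine hmain.trans ?_
    have e : (p + mm (Fin N) r * (τ * τ)) * k = p * k + mm (Fin N) r * (τ * τ) * k := by ring
    rw [e, pow_add]
    apply Nat.mul_le_mul
    · calc p ≤ 2 ^ p := Nat.lt_two_pow_self.le
        _ ≤ (k + 2) ^ p := Nat.pow_le_pow_left (by omega) _
        _ ≤ (k + 2) ^ (p * k) := Nat.pow_le_pow_right (by omega) (Nat.le_mul_of_pos_right _ hk)
    · have h3 : τ * k + 2 ≤ (k + 2) ^ τ := by
        rw [hτ]
        generalize T.ncard = t
        induction t with
        | zero => simp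
        | succ t ih =>
          rw [pow_succ]
          calc (t + 1 + 1) * k + 2 ≤ ((t + 1) * k + 2) * (k + 2) := by nlinarith [Nat.zero_le (t * k * k), Nat.zero_le (t * k), Nat.zero_le (k * k)]
            _ ≤ (k + 2) ^ (t + 1) * (k + 2) := Nat.mul_le_mul_right _ ih
      calc (τ * k + 2) ^ (mm (Fin N) r * (τ * k)) ≤
            ((k + 2) ^ τ) ^ (mm (Fin N) r * (τ * k)) := Nat.pow_le_pow_left h3 _
        _ = (k + 2) ^ (mm (Fin N) r * (τ * τ) * k) := by
            rw [← pow_mul]; congr 1; ring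
  exact_mod_cast h1

theorem cut_sum (G : Type v) [Group G] [Group.IsFinitelyPresented G] (hG : IsMulTorsion G)
    (S : Set G) (hS : Subgroup.closure S = ⊤) :
    ∃ c : ℝ, 0 < c ∧ ∀ (X : Type u) [MulAction G X] [MulAction.IsPretransitive G X]
      (C : ℕ → Set X) (L : ℕ), 3 ≤ L → (C 0).Nonempty → C L ≠ Set.univ →
      (∀ i < L, ∀ x ∈ C i, x ∈ C (i + 1) ∧ ∀ s ∈ S, s • x ∈ C (i + 1) ∧ s⁻¹ • x ∈ C (i + 1)) →
      ∀ N : ℕ, ∑ i ∈ Finset.range L, (bdry S (C i)).encard ≤ N →
        c * ((L : ℝ) * Real.log L / Real.log (Real.log L)) ≤ N := by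
  classical
  obtain ⟨m, hm⟩ := cuts.{u, v} G hG S hS
  obtain ⟨c, hc, hnum⟩ := numeric 1 (m + 1) le_rfl (by omega)
  refine ⟨c, hc, ?_⟩
  intro X _ _ C L hL hC0 hCL hC N hN
  obtain ⟨K, hK⟩ := hnum L hL
  rw [Nat.div_one] at hK
  have hmono : ∀ i j, i ≤ j → j ≤ L → C i ⊆ C j := by
    intro i j hij
    induction hij with
    | refl => intro _; exact subset_rfl
    | @step j hij ih =>
      intro hj
      exact (ih (by omega)).trans fun x hx => (hC j (by omega) x hx).1
  refine hK.trans (max_le ?_ ?_)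
  · have h1 : (1 : ℕ∞) ≤ (bdry S (C 0)).encard := by
      rw [Set.one_le_encard_iff_nonempty]
      apply bdry_nonempty S hS _ hC0
      intro h
      apply hCL
      rw [Set.eq_univ_iff_forall] at h ⊢
      exact fun y => hmono 0 L (Nat.zero_le L) le_rfl (h y)
    have h2 : (bdry S (C 0)).encard ≤ ∑ i ∈ Finset.range L, (bdry S (C i)).encard :=
      Finset.single_le_sum (f := fun i => (bdry S (C i)).encard) (fun _ _ => zero_le)
        (Finset.mem_range.2 (by omega))
    have h3 := (h1.trans h2).trans hN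
    exact_mod_cast h3
  · have h1 := hm X C L K hC0 hCL hC
    let A : Finset ℕ := (Finset.range L).filter (fun i => (bdry S (C i)).encard ≤ K)
    let B : Finset ℕ := (Finset.range L).filter (fun i => ¬ (bdry S (C i)).encard ≤ K)
    have hA : A.card ≤ (K + 2) ^ (m * K) := by
      have h2 : (A : Set ℕ) ⊆ {i | i ≤ L ∧ (bdry S (C i)).encard ≤ K} := by
        intro i hi
        obtain ⟨h3, h4⟩ := Finset.mem_filter.1 hi
        exact ⟨(Finset.mem_range.1 h3).le, h4⟩
      have h3 := (Set.encard_le_encard h2).trans h1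
      rw [Set.encard_coe_eq_coe_finsetCard] at h3
      exact_mod_cast h3
    have hA' : A.card ≤ (K + 2) ^ ((m + 1) * K) :=
      hA.trans (Nat.pow_le_pow_right (by omega) (Nat.mul_le_mul_right _ (by omega)))
    have hAB : A.card + B.card = L := by
      rw [Finset.card_filter_add_card_filter_not, Finset.card_range]
    have hB : ((B.card * (K + 1) : ℕ) : ℕ∞) ≤ ∑ i ∈ Finset.range L, (bdry S (C i)).encard := by
      have h2 : B.card • ((K + 1 : ℕ) : ℕ∞) ≤ ∑ i ∈ B, (bdry S (C i)).encard := by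
        apply Finset.card_nsmul_le_sum
        intro i hi
        have h3 : ((K : ℕ) : ℕ∞) < (bdry S (C i)).encard := not_le.1 (Finset.mem_filter.1 hi).2
        rw [Nat.cast_add, Nat.cast_one]
        exact Order.add_one_le_of_lt h3
      have h3 : ∑ i ∈ B, (bdry S (C i)).encard ≤ ∑ i ∈ Finset.range L, (bdry S (C i)).encard :=
        Finset.sum_le_sum_of_subset (Finset.filter_subset _ _)
      rw [nsmul_eq_mul, ← Nat.cast_mul] at h2
      exact h2.trans h3
    have h4 : B.card * (K + 1) ≤ N := by exact_mod_cast hB.trans hN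
    have h5 : (L - (K + 2) ^ ((m + 1) * K)) * (K + 1) ≤ N :=
      le_trans (Nat.mul_le_mul_right _ (by omega)) h4
    exact_mod_cast h5

end Vale.Agent.P192.H593
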