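import Vale.Agent.P192.H593.Growth

set_option linter.all false

/-! Diameters of finite `G`-sets. -/

namespace Vale.Agent.P192.H593

open Vale.Agent.P192 Function

universe u v

theorem card_nhd {G : Type v} [Group G] (S : Set G) (hS : Subgroup.closure S = ⊤)
    {X : Type u} [MulAction G X] [MulAction.IsPretransitive G X] (Z : Set X) (hZ : Z.Nonempty) :
    ∀ n : ℕ, nhd S Z n ≠ Set.univ → ((n + 1 : ℕ) : ℕ∞) ≤ (nhd S Z n).encard := by
  have hmono : ∀ n, nhd S Z n ⊆ nhd S Z (n + 1) := by
    rintro n y ⟨z, hz, w, h1, h2, h3⟩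
    exact ⟨z, hz, w, h1, by omega, h3⟩
  have hstep : ∀ n, nhd S (nhd S Z n) 1 ⊆ nhd S Z (n + 1) := by
    rintro n y ⟨_, ⟨z, hz, w, h1, h2, rfl⟩, w', h1', h2', rfl⟩
    refine ⟨z, hz, w' ++ w, ?_, ?_, ?_⟩
    · intro s hs
      rcases List.mem_append.1 hs with h | h
      · exact h1' s h
      · exact h1 s h
    · rw [List.length_append]; omega
    · rw [List.prod_append, mul_smul]
  have hZ0 : ∀ n, Z ⊆ nhd S Z n := fun n z hz => ⟨z, hz, [], by simp, by simp, by simp⟩
  intro n
  induction n with
  | zero =>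
    intro _
    rw [zero_add, Nat.cast_one, Set.one_le_encard_iff_nonempty]
    exact hZ.mono (hZ0 0)
  | succ n ih =>
    intro hn
    have hn' : nhd S Z n ≠ Set.univ := by
      intro h
      apply hn
      rw [Set.eq_univ_iff_forall] at h ⊢
      exact fun y => hmono n (h y)
    have h1 := ih hn'
    have h2 := one_le_nhd S hS (nhd S Z n) (hZ.mono (hZ0 n)) 1 le_rfl (by
      intro h
      apply hn
      rw [Set.eq_univ_iff_forall] at h ⊢
      exact fun y => hstep n (h y))
    have h3 : (nhd S Z n).encard + (nhd S (nhd S Z n) 1 \ nhd S Z n).encard ≤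
        (nhd S Z (n + 1)).encard := by
      rw [← Set.encard_union_eq Set.disjoint_sdiff_right]
      apply Set.encard_le_encard
      rintro y (hy | hy)
      · exact hmono n hy
      · exact hstep n hy.1
    refine le_trans ?_ h3
    rw [Nat.cast_add, Nat.cast_one]
    exact add_le_add h1 h2

theorem diam (G : Type v) [Group G] [Group.IsFinitelyPresented G] (hG : IsMulTorsion G)
    (S : Set G) (hS : Subgroup.closure S = ⊤) :
    ∃ C : ℝ, ∀ (X : Type u) [MulAction G X] [MulAction.IsPretransitive G X],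
      3 ≤ Nat.card X → ∀ x y : X, ∃ w : List G, (∀ s ∈ w, s ∈ S ∨ s⁻¹ ∈ S) ∧
        w.prod • x = y ∧ (w.length : ℝ) ≤
          C * ((Nat.card X : ℝ) * Real.log (Real.log (Nat.card X)) / Real.log (Nat.card X)) := by
  classical
  obtain ⟨c, hc, hgr⟩ := growth.{u, v} G hG S hS
  have hlog3 : 1 < Real.log 3 := by
    rw [Real.lt_log_iff_exp_lt (by norm_num)]
    have := Real.exp_one_lt_d9
    linarith
  set l3 := Real.log (Real.log 3) with hl3
  have hll3 : 0 < l3 := Real.log_pos hlog3
  refine ⟨3 / l3 + 4 / l3 + 4 / c, ?_⟩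
  intro X _ _ hM x y
  set M := Nat.card X with hMdef
  have hfin : Finite X := Nat.finite_of_card_ne_zero (by omega)
  have hMR : (3 : ℝ) ≤ M := by exact_mod_cast hM
  have hLM3 : Real.log 3 ≤ Real.log M := Real.log_le_log (by norm_num) hMR
  have hLM : 1 < Real.log M := lt_of_lt_of_le hlog3 hLM3
  have hllM : l3 ≤ Real.log (Real.log M) := Real.log_le_log (by linarith) hLM3
  have hllM0 : 0 < Real.log (Real.log M) := lt_of_lt_of_le hll3 hllM
  set f : ℝ := (M : ℝ) * Real.log (Real.log M) / Real.log M with hf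
  have hf0 : 0 < f := by positivity
  have hlogM : Real.log M ≤ M := by
    have := Real.log_le_sub_one_of_pos (by linarith : (0 : ℝ) < M)
    linarith
  have hf1 : l3 ≤ f := by
    rw [hf, le_div_iff₀ (by linarith)]
    nlinarith
  have hsM : Real.sqrt M * Real.sqrt M = M := Real.mul_self_sqrt (by linarith)
  have hsM0 : 0 < Real.sqrt M := Real.sqrt_pos.2 (by linarith)
  have hlogM2 : Real.log M ≤ 2 * Real.sqrt M := by
    have h1 : Real.log M = 2 * Real.log (Real.sqrt M) := by
      rw [Real.log_sqrt (by linarith)]; ring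
    have h2 := Real.log_le_sub_one_of_pos hsM0
    rw [h1]
    linarith
  have hf2 : Real.sqrt M * l3 / 2 ≤ f := by
    rw [hf, le_div_iff₀ (by linarith)]
    calc Real.sqrt M * l3 / 2 * Real.log M ≤ Real.sqrt M * l3 / 2 * (2 * Real.sqrt M) :=
          mul_le_mul_of_nonneg_left hlogM2 (by positivity)
      _ = (Real.sqrt M * Real.sqrt M) * l3 := by ring
      _ = M * l3 := by rw [hsM]
      _ ≤ M * Real.log (Real.log M) := mul_le_mul_of_nonneg_left hllM (by linarith)
  have hex : ∃ n, y ∈ nhd S {x} n := by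
    obtain ⟨g, hg⟩ := MulAction.exists_smul_eq G x y
    obtain ⟨w, hw, rfl⟩ := exists_list S hS g
    exact ⟨w.length, x, rfl, w, hw, le_rfl, hg⟩
  obtain ⟨z, hz, w, h1, h2, h3⟩ := Nat.find_spec hex
  have hz' : z = x := hz
  rw [hz'] at h3
  refine ⟨w, h1, h3, ?_⟩
  have h2R : (w.length : ℝ) ≤ (Nat.find hex : ℝ) := by exact_mod_cast h2
  refine h2R.trans ?_
  rcases Nat.eq_zero_or_pos (Nat.find hex) with h0 | hpos
  · rw [h0]
    push_cast
    positivity
  obtain ⟨n, hn⟩ : ∃ n, Nat.find hex = n + 1 := ⟨Nat.find hex - 1, by omega⟩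
  have hne : nhd S {x} n ≠ Set.univ := by
    intro h
    have h4 : y ∈ nhd S {x} n := by rw [h]; trivial
    exact Nat.find_min hex (m := n) (by omega) h4
  rw [hn]
  push_cast
  have hA : 0 ≤ 3 / l3 * f := by positivity
  have hB : 0 ≤ 4 / l3 * f := by positivity
  have hD : 0 ≤ 4 / c * f := by positivity
  by_cases hn3 : n < 3
  · have h4 : (n : ℝ) + 1 ≤ 3 := by exact_mod_cast (by omega : n + 1 ≤ 3)
    have h5 : 3 ≤ 3 / l3 * f := by
      rw [div_mul_eq_mul_div, le_div_iff₀ hll3]
      linarith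
    linarith
  push Not at hn3
  have hn1 : (1 : ℝ) ≤ n := by exact_mod_cast (by omega : 1 ≤ n)
  have hn3R : (3 : ℝ) ≤ n := by exact_mod_cast hn3
  by_cases hsq : (n : ℝ) ≤ Real.sqrt M
  · have h5 : 2 * Real.sqrt M ≤ 4 / l3 * f := by
      rw [div_mul_eq_mul_div, le_div_iff₀ hll3]
      linarith
    linarith
  · push Not at hsq
    have hcard := card_nhd S hS {x} ⟨x, rfl⟩ n hne
    have huniv : (nhd S ({x} : Set X) n).encard ≤ (M : ℕ∞) := by
      have h6 : (Set.univ : Set X).encard = (M : ℕ∞) := by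
        rw [Set.encard_univ, ENat.card_eq_coe_natCard]
      rw [← h6]
      exact Set.encard_le_encard (Set.subset_univ _)
    have hnM : n + 1 ≤ M := by exact_mod_cast hcard.trans huniv
    have hnMR : (n : ℝ) ≤ M := by exact_mod_cast (by omega : n ≤ M)
    have h7 := hgr X {x} ⟨x, rfl⟩ n hn3 hne M ((Set.encard_le_encard Set.diff_subset).trans huniv)
    have hL1 : 1 < Real.log n := lt_of_lt_of_le hlog3 (Real.log_le_log (by norm_num) hn3R)
    have hll : Real.log (Real.log n) ≤ Real.log (Real.log M) :=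
      Real.log_le_log (by linarith) (Real.log_le_log (by linarith) hnMR)
    have hlln : 0 < Real.log (Real.log n) := Real.log_pos hL1
    have hLn : Real.log M / 2 ≤ Real.log n := by
      rw [← Real.log_sqrt (by linarith)]
      exact Real.log_le_log hsM0 hsq.le
    have h8 : c * ((n : ℝ) * (Real.log M / 2) / Real.log (Real.log M)) ≤ M := by
      refine le_trans ?_ h7
      apply mul_le_mul_of_nonneg_left _ hc.le
      apply div_le_div₀ _ _ hlln hll
      · positivity
      · exact mul_le_mul_of_nonneg_left hLn (by linarith)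
    have h9 : (n : ℝ) ≤ 2 / c * f := by
      rw [hf]
      have h10 : c * ((n : ℝ) * (Real.log M / 2) / Real.log (Real.log M)) =
          (c * n * Real.log M / 2) / Real.log (Real.log M) := by ring
      rw [h10, div_le_iff₀ hllM0] at h8
      have h11 : 2 / c * ((M : ℝ) * Real.log (Real.log M) / Real.log M) =
          (2 * (M * Real.log (Real.log M))) / (c * Real.log M) := by
        field_simp
      rw [h11, le_div_iff₀ (by positivity)]
      nlinarith
    have h12 : 4 / c * f = 2 * (2 / c * f) := by ring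
    linarith

end Vale.Agent.P192.H593
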