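import Vale.Agent.P192.H593.Wob
import Mathlib.Analysis.SpecialFunctions.Log.Monotone

set_option linter.all false

/-! Permutations of `ℤ` with slowly growing displacement. -/

namespace Vale.Agent.P192.H593

open Vale.Agent.P192 Function Filter Asymptotics

universe u v

/-- `log t / log log t` -/
noncomputable def lam (t : ℝ) : ℝ := Real.log t / Real.log (Real.log t)

theorem exp_one_le_log : Real.exp 1 ≤ Real.log 16 := by
  have h1 : Real.log 16 = 4 * Real.log 2 := by
    have : (16 : ℝ) = 2 ^ 4 := by norm_num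
    rw [this, Real.log_pow]; norm_num
  have h2 := Real.exp_one_lt_d9
  have h3 := Real.log_two_gt_d9
  rw [h1]
  linarith

theorem lam_mono {a b : ℝ} (ha : 16 ≤ a) (hab : a ≤ b) : lam a ≤ lam b := by
  unfold lam
  have h0 := exp_one_le_log
  have he : (1 : ℝ) < Real.exp 1 := by
    have := Real.add_one_lt_exp (x := 1) (by norm_num)
    linarith
  have ha1 : Real.exp 1 ≤ Real.log a := h0.trans (Real.log_le_log (by norm_num) ha)
  have hab1 : Real.log a ≤ Real.log b := Real.log_le_log (by linarith) hab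
  have h1 := Real.log_div_self_antitoneOn ha1 (ha1.trans hab1) hab1
  have hpa : 0 < Real.log (Real.log a) := Real.log_pos (by linarith)
  have hpb : 0 < Real.log (Real.log b) := Real.log_pos (by linarith)
  have h2 : Real.log (Real.log b) / Real.log b ≤ Real.log (Real.log a) / Real.log a := h1
  rw [div_le_div_iff₀ (by linarith) (by linarith)] at h2
  rw [div_le_div_iff₀ hpa hpb]
  linarith

theorem lam_pos {a : ℝ} (ha : 16 ≤ a) : 0 < lam a := by
  unfold lam
  have h0 := exp_one_le_log
  have he : (1 : ℝ) < Real.exp 1 := by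
    have := Real.add_one_lt_exp (x := 1) (by norm_num)
    linarith
  have ha1 : Real.exp 1 ≤ Real.log a := h0.trans (Real.log_le_log (by norm_num) ha)
  exact div_pos (by linarith) (Real.log_pos (by linarith))

theorem lam_tendsto : Tendsto lam atTop atTop := by
  rw [tendsto_atTop]
  intro B
  have h1 := (isLittleO_iff.1 Real.isLittleO_log_id_atTop) (c := 1 / (|B| + 1)) (by positivity)
  have h2 := Real.tendsto_log_atTop.eventually h1
  filter_upwards [h2, eventually_ge_atTop 16] with t ht h16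
  have h0 := exp_one_le_log
  have he : (1 : ℝ) < Real.exp 1 := by
    have := Real.add_one_lt_exp (x := 1) (by norm_num)
    linarith
  have ha1 : Real.exp 1 ≤ Real.log t := h0.trans (Real.log_le_log (by norm_num) h16)
  have hll : 0 < Real.log (Real.log t) := Real.log_pos (by linarith)
  simp only [id] at ht
  rw [Real.norm_of_nonneg hll.le, Real.norm_of_nonneg (by linarith)] at ht
  unfold lam
  rw [le_div_iff₀ hll]
  rw [div_mul_eq_mul_div, one_mul, le_div_iff₀ (by positivity)] at ht
  have h3 := le_abs_self B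
  nlinarith [abs_nonneg B]

theorem lam_le (ε : ℝ) (hε : 0 < ε) : ∀ᶠ t : ℝ in atTop, ε * lam t ≤ Real.sqrt t / 4 := by
  have h1 := (isLittleO_iff.1 Real.isLittleO_log_id_atTop) (c := 1 / (8 * ε)) (by positivity)
  have h2 : Tendsto Real.sqrt atTop atTop := Real.tendsto_sqrt_atTop
  filter_upwards [h2.eventually h1, eventually_ge_atTop 16] with t ht h16
  have h0 := exp_one_le_log
  have ha1 : Real.exp 1 ≤ Real.log t := h0.trans (Real.log_le_log (by norm_num) h16)
  have hll : 1 ≤ Real.log (Real.log t) := by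
    rw [Real.le_log_iff_exp_le (by linarith [Real.exp_pos 1])]
    exact ha1
  simp only [id] at ht
  rw [Real.norm_of_nonneg (Real.sqrt_nonneg t)] at ht
  have h3 : Real.log (Real.sqrt t) = Real.log t / 2 := Real.log_sqrt (by linarith)
  have h4 : Real.log t / 2 ≤ 1 / (8 * ε) * Real.sqrt t := by
    rw [← h3]
    exact (le_abs_self _).trans ht
  unfold lam
  calc ε * (Real.log t / Real.log (Real.log t)) ≤ ε * (Real.log t / 1) := by
        apply mul_le_mul_of_nonneg_left _ hε.le
        exact div_le_div_of_nonneg_left (by linarith [Real.exp_pos 1]) one_pos hll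
    _ = 2 * ε * (Real.log t / 2) := by ring
    _ ≤ 2 * ε * (1 / (8 * ε) * Real.sqrt t) := mul_le_mul_of_nonneg_left h4 (by positivity)
    _ = Real.sqrt t / 4 := by field_simp; ring

theorem displacement (G : Type v) [Group G] [Group.IsFinitelyPresented G] (hG : IsMulTorsion G)
    (ρ : G →* Equiv.Perm ℤ)
    (hρ : ∀ g : G, (fun n : ℤ => ((ρ g n - n : ℤ) : ℝ)) =o[cofinite]
      (fun n : ℤ => Real.log |(n : ℝ)| / Real.log (Real.log |(n : ℝ)|)))
    (x : ℤ) : (Set.range fun g : G => ρ g x).Finite := by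
  classical
  obtain ⟨S, hSfin, hS⟩ := exists_fin_gen G
  letI : MulAction G ℤ := MulAction.compHom ℤ ρ
  have hsm : ∀ (g : G) (y : ℤ), g • y = ρ g y := fun _ _ => rfl
  obtain ⟨c, hc, hgr⟩ := growth.{0, v} G hG S hS
  by_contra hinf
  have horb : (MulAction.orbit G x).Infinite := hinf
  set ε : ℝ := c / 16 with hε
  have hε0 : 0 < ε := by positivity
  set S' : Set G := {s | s ∈ S ∨ s⁻¹ ∈ S} with hS'
  have hS'fin : S'.Finite := by
    have : S' = S ∪ (fun s => s⁻¹) '' S := by
      ext s
      constructor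
      · rintro (h | h)
        · exact Or.inl h
        · exact Or.inr ⟨s⁻¹, h, inv_inv s⟩
      · rintro (h | ⟨t, ht, rfl⟩)
        · exact Or.inl h
        · right
          simpa using ht
    rw [this]
    exact hSfin.union (hSfin.image _)
  -- the exceptional set
  let F : Set ℤ := (⋃ s ∈ S', {n : ℤ | ¬ ‖((ρ s n - n : ℤ) : ℝ)‖ ≤
    ε * ‖Real.log |(n : ℝ)| / Real.log (Real.log |(n : ℝ)|)‖}) ∪ Set.Icc (-16) 16
  have hF : F.Finite := by
    refine (hS'fin.biUnion fun s _ => ?_).union (Set.finite_Icc _ _)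
    exact eventually_cofinite.1 ((isLittleO_iff.1 (hρ s)) hε0)
  obtain ⟨D, hD⟩ : ∃ D : ℝ, ∀ s ∈ S', ∀ n ∈ F, |((ρ s n - n : ℤ) : ℝ)| ≤ D := by
    obtain ⟨b, hb⟩ := ((hS'fin.prod hF).image
      (fun p : G × ℤ => |((ρ p.1 p.2 - p.2 : ℤ) : ℝ)|)).bddAbove
    exact ⟨b, fun s hs n hn => hb ⟨(s, n), ⟨hs, hn⟩, rfl⟩⟩
  -- choice of `R`
  have hev : ∀ᶠ t : ℝ in atTop, 16 ≤ t ∧ 4 * |(x : ℝ)| ≤ t ∧ max D 1 ≤ ε * lam t ∧
      ε * lam t ≤ Real.sqrt t / 4 := by
    filter_upwards [eventually_ge_atTop 16, eventually_ge_atTop (4 * |(x : ℝ)|),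
      (lam_tendsto.const_mul_atTop hε0).eventually_ge_atTop (max D 1), lam_le ε hε0]
      with t h1 h2 h3 h4
    exact ⟨h1, h2, h3, h4⟩
  obtain ⟨R, hR16, hRx, hRD, hRs⟩ := (tendsto_natCast_atTop_atTop.eventually hev).exists
  set δ : ℝ := ε * lam R with hδ
  have hδ1 : 1 ≤ δ := (le_max_right _ _).trans hRD
  have hδD : D ≤ δ := (le_max_left _ _).trans hRD
  have hstep : ∀ s ∈ S', ∀ n : ℤ, |(n : ℝ)| ≤ R → |((ρ s n : ℤ) : ℝ) - n| ≤ δ := by
    intro s hs n hn
    by_cases hnF : n ∈ F
    · have h1 := (hD s hs n hnF).trans hδD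
      push_cast at h1
      exact h1
    · have h1 : n ∉ Set.Icc (-16 : ℤ) 16 := fun h => hnF (Or.inr h)
      have h2 : ‖((ρ s n - n : ℤ) : ℝ)‖ ≤
          ε * ‖Real.log |(n : ℝ)| / Real.log (Real.log |(n : ℝ)|)‖ := by
        by_contra h
        exact hnF (Or.inl (Set.mem_biUnion hs h))
      have h3 : (16 : ℝ) ≤ |(n : ℝ)| := by
        have h4 : (16 : ℤ) ≤ |n| := by
          by_contra h
          push Not at h
          exact h1 ⟨by have := (abs_lt.1 h).1; omega, by have := (abs_lt.1 h).2; omega⟩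
        exact_mod_cast h4
      have h5 : 0 < lam |(n : ℝ)| := lam_pos h3
      have h6 : ‖((ρ s n - n : ℤ) : ℝ)‖ ≤ ε * lam |(n : ℝ)| := by
        refine h2.trans (le_of_eq ?_)
        rw [Real.norm_of_nonneg]
        · rfl
        · exact h5.le
      have h7 := h6.trans (mul_le_mul_of_nonneg_left (lam_mono h3 hn) hε0.le)
      rw [Real.norm_eq_abs] at h7
      push_cast at h7
      exact h7
  have hR0 : (0 : ℝ) < R := by linarith
  have hword : ∀ w : List G, (∀ s ∈ w, s ∈ S ∨ s⁻¹ ∈ S) → |(x : ℝ)| + w.length * δ ≤ R →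
      |((w.prod • x : ℤ) : ℝ)| ≤ |(x : ℝ)| + w.length * δ := by
    intro w hw
    induction w with
    | nil => intro _; simp
    | cons s w ih =>
      intro hle
      rw [List.length_cons] at hle ⊢
      push_cast at hle ⊢
      have h1 : |((w.prod • x : ℤ) : ℝ)| ≤ |(x : ℝ)| + w.length * δ :=
        ih (fun t ht => hw t (by simp [ht])) (by linarith)
      have h2 := hstep s (hw s (by simp)) (w.prod • x) (by linarith)
      rw [List.prod_cons, mul_smul, hsm s]
      have h3 := abs_add_le (((ρ s (w.prod • x) : ℤ) : ℝ) - ((w.prod • x : ℤ) : ℝ))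
        ((w.prod • x : ℤ) : ℝ)
      rw [sub_add_cancel] at h3
      linarith
  set n : ℕ := ⌊((R : ℝ) - |(x : ℝ)|) / δ⌋₊ with hn
  have hRx0 : 0 ≤ (R : ℝ) - |(x : ℝ)| := by
    have := abs_nonneg (x : ℝ)
    linarith
  have hnle : (n : ℝ) ≤ ((R : ℝ) - |(x : ℝ)|) / δ := Nat.floor_le (by positivity)
  have hnlt : ((R : ℝ) - |(x : ℝ)|) / δ < n + 1 := Nat.lt_floor_add_one _
  have hδ0 : 0 < δ := by linarith
  have hnδ : |(x : ℝ)| + n * δ ≤ R := by
    rw [le_div_iff₀ hδ0] at hnle
    linarith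
  have hs4 : (4 : ℝ) ≤ Real.sqrt R := by
    apply Real.le_sqrt_of_sq_le
    linarith
  have hss : Real.sqrt R * Real.sqrt R = R := Real.mul_self_sqrt hR0.le
  have hnge : (R : ℝ) / (2 * δ) ≤ n := by
    have h1 : (R : ℝ) / (2 * δ) ≤ ((R : ℝ) - |(x : ℝ)|) / δ - 1 := by
      rw [div_sub_one hδ0.ne', div_le_div_iff₀ (by positivity) hδ0]
      have h2 : δ ≤ (R : ℝ) / 16 := by
        nlinarith
      nlinarith
    linarith
  have hnsq : Real.sqrt R ≤ n := by
    refine le_trans ?_ hnge
    rw [le_div_iff₀ (by positivity)]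
    nlinarith
  have hn4 : (4 : ℝ) ≤ n := hs4.trans hnsq
  have hn3 : 3 ≤ n := by exact_mod_cast (by linarith : (3 : ℝ) ≤ n)
  -- the neighbourhood in the orbit
  let x' : MulAction.orbit G x := ⟨x, MulAction.mem_orbit_self x⟩
  let Z : Set (MulAction.orbit G x) := {x'}
  have hsub : Subtype.val '' (nhd S Z n) ⊆ Set.Icc (-(R : ℤ)) R := by
    rintro _ ⟨_, ⟨z, hz, w, h1, h2, rfl⟩, rfl⟩
    have hz' : z = x' := hz
    rw [hz']
    have h2R : (w.length : ℝ) ≤ n := by exact_mod_cast h2
    have h3 : (w.length : ℝ) * δ ≤ n * δ := mul_le_mul_of_nonneg_right h2R hδ0.le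
    have h4 := hword w h1 (by linarith)
    have h5 : |((w.prod • x : ℤ) : ℝ)| ≤ R := by linarith
    have h6 : |(w.prod • x : ℤ)| ≤ (R : ℤ) := by exact_mod_cast h5
    exact abs_le.1 h6
  have hcard : (nhd S Z n).encard ≤ ((2 * R + 1 : ℕ) : ℕ∞) := by
    rw [← Subtype.val_injective.encard_image]
    refine (Set.encard_le_encard hsub).trans (le_of_eq ?_)
    rw [← Finset.coe_Icc, Set.encard_coe_eq_coe_finsetCard, Int.card_Icc]
    congr 1
    omega
  have hne : nhd S Z n ≠ Set.univ := by
    intro h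
    rw [h] at hcard
    have h1 : (Set.univ : Set (MulAction.orbit G x)).Finite := Set.finite_of_encard_le_coe hcard
    exact horb (Set.finite_coe_iff.1 (Set.finite_univ_iff.1 h1))
  have hfin := hgr (MulAction.orbit G x) Z ⟨x', rfl⟩ n hn3 hne (2 * R + 1)
    ((Set.encard_le_encard Set.diff_subset).trans hcard)
  -- the final estimate
  have hRll : Real.exp 1 ≤ Real.log R := exp_one_le_log.trans (Real.log_le_log (by norm_num) hR16)
  have he : (2 : ℝ) < Real.exp 1 := by
    have := Real.exp_one_gt_d9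
    linarith
  have hllR : 0 < Real.log (Real.log R) := Real.log_pos (by linarith)
  have hnR : (n : ℝ) ≤ R := by
    have h1 : (n : ℝ) * 1 ≤ n * δ := mul_le_mul_of_nonneg_left hδ1 (by linarith)
    have := abs_nonneg (x : ℝ)
    linarith
  have hLn : Real.log R / 2 ≤ Real.log n := by
    rw [← Real.log_sqrt hR0.le]
    exact Real.log_le_log (by linarith) hnsq
  have hlln : Real.log (Real.log n) ≤ Real.log (Real.log R) :=
    Real.log_le_log (by linarith) (Real.log_le_log (by linarith) hnR)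
  have hlln0 : 0 < Real.log (Real.log n) := Real.log_pos (by linarith)
  have h1 : c * ((R / (2 * δ)) * (Real.log R / 2) / Real.log (Real.log R)) ≤ 2 * R + 1 := by
    have h2 : c * ((R / (2 * δ)) * (Real.log R / 2) / Real.log (Real.log R)) ≤
        c * ((n : ℝ) * Real.log n / Real.log (Real.log n)) := by
      apply mul_le_mul_of_nonneg_left _ hc.le
      apply div_le_div₀ _ _ hlln0 hlln
      · have : 0 < Real.log n := by linarith
        positivity
      · exact mul_le_mul hnge hLn (by linarith) (by linarith)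
    refine h2.trans (hfin.trans (le_of_eq ?_))
    push_cast
    ring
  have h3 : c * ((R / (2 * δ)) * (Real.log R / 2) / Real.log (Real.log R)) = 4 * R := by
    rw [hδ, hε]
    unfold lam
    have h4 : Real.log R ≠ 0 := by linarith
    have h5 := hllR.ne'
    field_simp
    ring
  rw [h3] at h1
  linarith

end Vale.Agent.P192.H593
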