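import Vale.Agent.P192.H593.CutsG
import Vale.Agent.P192.H593.Disp
import Vale.Agent.P192.H630.Free

set_option linter.all false

/-! Bounded displacement in graphs with slowly growing cuts. -/

namespace Vale.Agent.P192.H593

open Vale.Agent.P192 Function Filter Asymptotics SimpleGraph

universe u v

theorem walk_exit {X : Type u} {Γ : SimpleGraph X} (F : Set X) : ∀ {x y : X} (p : Γ.Walk x y),
    x ∈ F → y ∉ F → ∃ u, (u ∈ F ∧ ∃ z, Γ.Adj u z ∧ z ∉ F) ∧ x ∈ H630.near Γ p.length u := by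
  intro x y p
  induction p with
  | nil => intro h1 h2; exact absurd h1 h2
  | @cons x w y h q ih =>
    intro h1 h2
    by_cases hw : w ∈ F
    · obtain ⟨u, h3, p', hp'⟩ := ih hw h2
      refine ⟨u, h3, p'.append (Walk.cons h.symm Walk.nil), ?_⟩
      rw [Walk.length_append, Walk.length_cons, Walk.length_nil, Walk.length_cons]
      omega
    · exact ⟨x, ⟨h1, w, h, hw⟩, Walk.nil, Nat.zero_le _⟩

theorem walk_in {X : Type u} {Γ : SimpleGraph X} (F : ℕ → Set X)
    (hF : ∀ i, ∀ x ∈ F i, x ∈ F (i + 1) ∧ ∀ y, Γ.Adj x y → y ∈ F (i + 1)) :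
    ∀ {x y : X} (p : Γ.Walk x y) (i : ℕ), x ∈ F i → y ∈ F (i + p.length) := by
  intro x y p
  induction p with
  | nil => intro i h; simpa using h
  | @cons x w y h q ih =>
    intro i hx
    rw [Walk.length_cons]
    have h1 := ih (i + 1) ((hF i x hx).2 w h)
    have h2 : i + 1 + q.length = i + (q.length + 1) := by omega
    rwa [h2] at h1

theorem pow_le_sqrt (m : ℕ) (hm : 1 ≤ m) (n : ℕ) (hn : 55 ≤ n) :
    (((⌊lam n / (2 * m)⌋₊ + 2) ^ (m * ⌊lam n / (2 * m)⌋₊) : ℕ) : ℝ) ≤ Real.sqrt n := by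
  have hnR : (55 : ℝ) ≤ n := by exact_mod_cast hn
  have hmR : (1 : ℝ) ≤ m := by exact_mod_cast hm
  have hL4 : 4 ≤ Real.log n := by
    rw [Real.le_log_iff_exp_le (by linarith)]
    exact exp_four.trans hnR
  have hl2 : 1 ≤ Real.log (Real.log n) := by
    rw [Real.le_log_iff_exp_le (by linarith)]
    have := Real.exp_one_lt_d9
    linarith
  unfold lam
  set L := Real.log n with hLdef
  set ℓ := Real.log L with hℓdef
  set K : ℕ := ⌊L / ℓ / (2 * m)⌋₊ with hK
  have hℓ : 0 < ℓ := by linarith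
  have hK1 : (K : ℝ) ≤ L / ℓ / (2 * m) := Nat.floor_le (by positivity)
  have hK3 : (K : ℝ) ≤ L / 2 := by
    refine hK1.trans ?_
    rw [div_div]
    exact div_le_div_of_nonneg_left (by linarith) (by norm_num) (by nlinarith)
  have hK4 : (K : ℝ) + 2 ≤ L := by linarith
  have hsq : Real.sqrt n = Real.exp (L / 2) := by
    rw [hLdef, Real.exp_half, Real.exp_log (by linarith)]
  rw [hsq]
  push_cast
  have hK2p : (0 : ℝ) < (K : ℝ) + 2 := by positivity
  rw [← Real.exp_log (pow_pos hK2p (m * K)), Real.exp_le_exp, Real.log_pow]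
  push_cast
  have h1 : Real.log ((K : ℝ) + 2) ≤ ℓ := Real.log_le_log hK2p hK4
  calc (m : ℝ) * K * Real.log ((K : ℝ) + 2) ≤ (m : ℝ) * K * ℓ :=
        mul_le_mul_of_nonneg_left h1 (by positivity)
    _ ≤ (m : ℝ) * (L / ℓ / (2 * m)) * ℓ := by
        apply mul_le_mul_of_nonneg_right _ hℓ.le
        exact mul_le_mul_of_nonneg_left hK1 (by positivity)
    _ = L / 2 := by field_simp

/-- the numerical choice of the length of the chain -/
theorem exists_len (m q p B : ℕ) (hm : 1 ≤ m) (b : ℕ → ℕ)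
    (hb : (fun i : ℕ => (b i : ℝ)) =o[atTop] (fun i : ℕ => Real.log i / Real.log (Real.log i))) :
    ∃ n K : ℕ, (K + 2) ^ (m * K) ≤ n ∧ ∀ i ≤ n, b (q * i + p) * B ≤ K := by
  set ε : ℝ := 1 / (8 * m * (B + 1)) with hε
  have hmR : (1 : ℝ) ≤ m := by exact_mod_cast hm
  have hε0 : 0 < ε := by positivity
  obtain ⟨j0, hj0⟩ := eventually_atTop.1 ((isLittleO_iff.1 hb) hε0)
  obtain ⟨D, hD⟩ : ∃ D : ℕ, ∀ j < max j0 16, b j ≤ D := by
    obtain ⟨D, hD⟩ := ((Set.finite_lt_nat (max j0 16)).image b).bddAbove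
    exact ⟨D, fun j hj => hD ⟨j, hj, rfl⟩⟩
  have hev : ∀ᶠ t : ℝ in atTop, 55 ≤ t ∧ (q : ℝ) + p ≤ t ∧
      max (4 * (m : ℝ)) (4 * m * (D * B)) ≤ lam t := by
    filter_upwards [eventually_ge_atTop 55, eventually_ge_atTop ((q : ℝ) + p),
      lam_tendsto.eventually_ge_atTop (max (4 * (m : ℝ)) (4 * m * (D * B)))] with t h1 h2 h3
    exact ⟨h1, h2, h3⟩
  obtain ⟨n, hn55, hnq, hnl⟩ := (tendsto_natCast_atTop_atTop.eventually hev).exists
  have hn55' : 55 ≤ n := by exact_mod_cast hn55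
  have hnq' : q + p ≤ n := by exact_mod_cast hnq
  have hpow := pow_le_sqrt m hm n hn55'
  set K : ℕ := ⌊lam n / (2 * m)⌋₊ with hK
  refine ⟨n, K, ?_, ?_⟩
  · have h1 : Real.sqrt n ≤ n := by
      rw [Real.sqrt_le_left (by linarith)]
      nlinarith
    exact_mod_cast hpow.trans h1
  · intro i hi
    have hlam : lam n / (4 * m) ≤ lam n / (2 * m) - 1 := by
      have h1 := (le_max_left _ _).trans hnl
      have h2 : lam n / (2 * m) = lam n / (4 * m) + lam n / (4 * m) := by
        field_simp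
        ring
      have h3 : 1 ≤ lam n / (4 * m) := by
        rw [le_div_iff₀ (by positivity)]
        linarith
      linarith
    have hK1 : lam n / (2 * m) < K + 1 := Nat.lt_floor_add_one _
    have hgoal : ((b (q * i + p) * B : ℕ) : ℝ) ≤ lam n / (4 * m) := by
      push_cast
      by_cases hj : q * i + p < max j0 16
      · have h1 : (b (q * i + p) : ℝ) ≤ D := by exact_mod_cast hD _ hj
        have h2 := (le_max_right _ _).trans hnl
        rw [le_div_iff₀ (by positivity)]
        have h3 : (b (q * i + p) : ℝ) * B ≤ D * B :=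
          mul_le_mul_of_nonneg_right h1 (Nat.cast_nonneg _)
        nlinarith
      · push Not at hj
        have hj16 : 16 ≤ q * i + p := (le_max_right _ _).trans hj
        have hj0' : j0 ≤ q * i + p := (le_max_left _ _).trans hj
        have h1 := hj0 _ hj0'
        have hj16R : (16 : ℝ) ≤ ((q * i + p : ℕ) : ℝ) := by exact_mod_cast hj16
        have hlp : 0 < lam ((q * i + p : ℕ) : ℝ) := lam_pos hj16R
        have h2 : (b (q * i + p) : ℝ) ≤ ε * lam ((q * i + p : ℕ) : ℝ) := by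
          have h7 : ‖Real.log ((q * i + p : ℕ) : ℝ) / Real.log (Real.log ((q * i + p : ℕ) : ℝ))‖ =
              lam ((q * i + p : ℕ) : ℝ) := Real.norm_of_nonneg hlp.le
          rw [h7, Real.norm_of_nonneg (Nat.cast_nonneg _)] at h1
          exact h1
        have hle : q * i + p ≤ n * n := by
          calc q * i + p ≤ q * n + p * n := by
                have h3 : q * i ≤ q * n := Nat.mul_le_mul_left _ hi
                have h4 : p ≤ p * n := Nat.le_mul_of_pos_right _ (by omega)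
                omega
            _ = (q + p) * n := by ring
            _ ≤ n * n := Nat.mul_le_mul_right _ hnq'
        have hleR : ((q * i + p : ℕ) : ℝ) ≤ (n : ℝ) * n := by exact_mod_cast hle
        have h3 : lam ((q * i + p : ℕ) : ℝ) ≤ lam ((n : ℝ) * n) := lam_mono hj16R hleR
        have hL4 : 4 ≤ Real.log n := by
          rw [Real.le_log_iff_exp_le (by linarith)]
          exact exp_four.trans hn55
        have h4 : lam ((n : ℝ) * n) ≤ 2 * lam n := by
          unfold lam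
          rw [Real.log_mul (by linarith) (by linarith)]
          have h5 : 0 < Real.log (Real.log n) := Real.log_pos (by linarith)
          have h6 : Real.log (Real.log n) ≤ Real.log (Real.log n + Real.log n) :=
            Real.log_le_log (by linarith) (by linarith)
          calc (Real.log n + Real.log n) / Real.log (Real.log n + Real.log n) ≤
                (Real.log n + Real.log n) / Real.log (Real.log n) :=
                div_le_div_of_nonneg_left (by linarith) h5 h6
            _ = 2 * (Real.log n / Real.log (Real.log n)) := by ring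
        have h5 : (b (q * i + p) : ℝ) * B ≤ (ε * (2 * lam n)) * (B + 1) := by
          apply mul_le_mul _ (by linarith) (Nat.cast_nonneg _)
          · have : 0 < lam n := lam_pos (by linarith)
            positivity
          · exact h2.trans (mul_le_mul_of_nonneg_left (h3.trans h4) hε0.le)
        refine h5.trans (le_of_eq ?_)
        rw [hε]
        field_simp
        ring
    have h6 : ((b (q * i + p) * B : ℕ) : ℝ) < K := by
      have : lam n / (4 * m) < K := by linarith
      linarith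
    exact_mod_cast h6.le

theorem narrow (G : Type v) [Group G] [Group.IsFinitelyPresented G] (hG : IsMulTorsion G)
    (Y : Type u) (Γ : SimpleGraph Y) (Δ : ℕ) (hΔ : ∀ y, (Γ.neighborSet y).encard ≤ Δ)
    (F : ℕ → Set Y) (b : ℕ → ℕ)
    (hF : ∀ i, ∀ y ∈ F i, y ∈ F (i + 1) ∧ ∀ z, Γ.Adj y z → z ∈ F (i + 1))
    (hFb : ∀ i, {y | y ∈ F i ∧ ∃ z, Γ.Adj y z ∧ z ∉ F i}.encard ≤ b i)
    (hb : (fun i : ℕ => (b i : ℝ)) =o[atTop] (fun i : ℕ => Real.log i / Real.log (Real.log i)))
    (ρ : G →* Equiv.Perm Y) (hρ : ∀ g : G, ∃ c : ℕ, ∀ y : Y, Γ.edist y (ρ g y) ≤ c)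
    (y : Y) (hy : ∃ i, y ∈ F i) : ∃ j, ∀ g : G, ρ g y ∈ F j := by
  classical
  obtain ⟨S, hSfin, hS⟩ := exists_fin_gen G
  choose d hd using hρ
  obtain ⟨c0, hc0⟩ := H630.exists_bound hSfin d
  letI : MulAction G Y := MulAction.compHom Y ρ
  have hsm : ∀ (g : G) (y : Y), g • y = ρ g y := fun _ _ => rfl
  have hwalk : ∀ s ∈ S, ∀ z : Y, ∃ p : Γ.Walk z (s • z), p.length ≤ c0 := by
    intro s hs z
    obtain ⟨p, hp⟩ := H630.walk_of_edist (hd s z)
    exact ⟨p, hp.trans (hc0 s hs)⟩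
  have hwalk' : ∀ s ∈ S, ∀ z : Y, ∃ p : Γ.Walk z (s⁻¹ • z), p.length ≤ c0 := by
    intro s hs z
    have h1 := hwalk s hs (s⁻¹ • z)
    rw [smul_inv_smul] at h1
    obtain ⟨p, hp⟩ := h1
    exact ⟨p.reverse, by rwa [Walk.length_reverse]⟩
  obtain ⟨m, hm⟩ := cuts.{u, v} G hG S hS
  obtain ⟨i0, hi0⟩ := hy
  have hFmono : ∀ i j, i ≤ j → F i ⊆ F j := by
    intro i j hij
    induction hij with
    | refl => exact subset_rfl
    | @step j hij ih => exact ih.trans fun x hx => (hF j x hx).1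
  obtain ⟨n, K, hnK, hbK⟩ := exists_len (m + 1) c0 i0 ((Δ + 1) ^ c0) (by omega) b hb
  by_contra hcon
  push Not at hcon
  let C : ℕ → Set (MulAction.orbit G y) := fun i => {z | z.1 ∈ F (c0 * i + i0)}
  have h1 := hm (MulAction.orbit G y) C n K ⟨⟨y, MulAction.mem_orbit_self y⟩, by
      show y ∈ F (c0 * 0 + i0)
      rw [mul_zero, zero_add]; exact hi0⟩ (by
      intro h
      obtain ⟨g, hg⟩ := hcon (c0 * n + i0)
      apply hg
      have h2 : (⟨g • y, MulAction.mem_orbit y g⟩ : MulAction.orbit G y) ∈ C n := by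
        rw [h]; trivial
      exact h2) (by
      intro i _ z hz
      have e : c0 * (i + 1) + i0 = c0 * i + i0 + c0 := by ring
      have hz' : z.1 ∈ F (c0 * i + i0) := hz
      refine ⟨?_, fun s hs => ⟨?_, ?_⟩⟩
      · show z.1 ∈ F (c0 * (i + 1) + i0)
        exact hFmono _ _ (by rw [e]; omega) hz'
      · show s • z.1 ∈ F (c0 * (i + 1) + i0)
        obtain ⟨p, hp⟩ := hwalk s hs z.1
        exact hFmono _ _ (by rw [e]; omega) (walk_in F hF p _ hz')
      · show s⁻¹ • z.1 ∈ F (c0 * (i + 1) + i0)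
        obtain ⟨p, hp⟩ := hwalk' s hs z.1
        exact hFmono _ _ (by rw [e]; omega) (walk_in F hF p _ hz'))
  have h2 : ∀ i ≤ n, (bdry S (C i)).encard ≤ K := by
    intro i hi
    have h3 : (⋃ u ∈ {y | y ∈ F (c0 * i + i0) ∧ ∃ z, Γ.Adj y z ∧ z ∉ F (c0 * i + i0)},
        H630.near Γ c0 u).encard ≤ ((b (c0 * i + i0) * (Δ + 1) ^ c0 : ℕ) : ℕ∞) :=
      H630.biUnion_le _ _ _ _ (hFb _) fun u _ => H630.near_card Γ Δ hΔ c0 u
    rw [← Subtype.val_injective.encard_image]
    have hsub : Subtype.val '' (bdry S (C i)) ⊆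
        ⋃ u ∈ {y | y ∈ F (c0 * i + i0) ∧ ∃ z, Γ.Adj y z ∧ z ∉ F (c0 * i + i0)},
          H630.near Γ c0 u := by
      rintro _ ⟨z, ⟨hz, s, hs, h⟩, rfl⟩
      have hz' : z.1 ∈ F (c0 * i + i0) := hz
      obtain ⟨w, p, hp, hw⟩ : ∃ w, ∃ p : Γ.Walk z.1 w, p.length ≤ c0 ∧ w ∉ F (c0 * i + i0) := by
        rcases h with h | h
        · obtain ⟨p, hp⟩ := hwalk s hs z.1
          exact ⟨_, p, hp, h⟩
        · obtain ⟨p, hp⟩ := hwalk' s hs z.1
          exact ⟨_, p, hp, h⟩
      obtain ⟨u, hu1, p', hp'⟩ := walk_exit (F (c0 * i + i0)) p hz' hw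
      exact Set.mem_biUnion hu1 ⟨p', hp'.trans hp⟩
    refine (Set.encard_le_encard hsub).trans (h3.trans ?_)
    exact_mod_cast hbK i hi
  have h3 : {i | i ≤ n ∧ (bdry S (C i)).encard ≤ K} = (Finset.range (n + 1) : Set ℕ) := by
    ext i
    simp only [Finset.coe_range, Set.mem_Iio, Set.mem_setOf_eq]
    constructor
    · rintro ⟨h, -⟩; omega
    · intro h; exact ⟨by omega, h2 i (by omega)⟩
  rw [h3, Set.encard_coe_eq_coe_finsetCard, Finset.card_range] at h1
  have h4 : n + 1 ≤ (K + 2) ^ (m * K) := by exact_mod_cast h1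
  have h5 : (K + 2) ^ (m * K) ≤ (K + 2) ^ ((m + 1) * K) :=
    Nat.pow_le_pow_right (by omega) (Nat.mul_le_mul_right _ (by omega))
  omega

end Vale.Agent.P192.H593
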