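import Vale.Agent.P192.H593.Growth
import Mathlib.Combinatorics.SimpleGraph.Metric
import Mathlib.Analysis.Asymptotics.Lemmas
import Mathlib.Order.Filter.AtTopBot.Basic

set_option linter.all false

/-! Wobbling groups of graphs of almost linear growth. -/

namespace Vale.Agent.P192.H593

open Vale.Agent.P192 Function Filter Asymptotics

universe u v

/-- a finite generating set of a finitely presented group -/
theorem exists_fin_gen (G : Type v) [Group G] [Group.IsFinitelyPresented G] :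
    ∃ S : Set G, S.Finite ∧ Subgroup.closure S = ⊤ := by
  obtain ⟨n, φ, hφ, -⟩ := ‹Group.IsFinitelyPresented G›.out
  refine ⟨Set.range (fun i : Fin n => φ (FreeGroup.of i)), Set.finite_range _, ?_⟩
  have h1 : Set.range (fun i : Fin n => φ (FreeGroup.of i)) =
      φ '' (Set.range (FreeGroup.of : Fin n → FreeGroup (Fin n))) := by
    rw [← Set.range_comp]; rfl
  rw [h1, ← MonoidHom.map_closure, FreeGroup.closure_range_of, ← MonoidHom.range_eq_map,
    MonoidHom.range_eq_top.2 hφ]

theorem wobbling (G : Type v) [Group G] [Group.IsFinitelyPresented G] (hG : IsMulTorsion G)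
    (Y : Type u) (Γ : SimpleGraph Y) (b : ℕ → ℕ)
    (hb : ∀ (y : Y) (n : ℕ), {z | Γ.edist y z ≤ n}.encard ≤ b n)
    (ho : ∀ ε : ℝ, 0 < ε → ∃ᶠ n : ℕ in atTop,
      (b n : ℝ) ≤ ε * ((n : ℝ) * Real.log n / Real.log (Real.log n)))
    (ρ : G →* Equiv.Perm Y) (hρ : ∀ g : G, ∃ c : ℕ, ∀ y : Y, Γ.edist y (ρ g y) ≤ c) :
    Finite ρ.range := by
  classical
  obtain ⟨S, hSfin, hS⟩ := exists_fin_gen G
  choose d hd using hρ
  obtain ⟨c0, hc0⟩ : ∃ c0 : ℕ, ∀ s ∈ S, d s ≤ c0 := by
    obtain ⟨b, hb⟩ := (hSfin.image d).bddAbove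
    exact ⟨b, fun w hw => hb ⟨w, hw, rfl⟩⟩
  letI : MulAction G Y := MulAction.compHom Y ρ
  have hsm : ∀ (g : G) (y : Y), g • y = ρ g y := fun _ _ => rfl
  have hstep : ∀ s : G, (s ∈ S ∨ s⁻¹ ∈ S) → ∀ y : Y, Γ.edist y (s • y) ≤ ((c0 + 1 : ℕ) : ℕ∞) := by
    intro s hs y
    rcases hs with hs | hs
    · refine (hd s y).trans ?_
      exact_mod_cast (hc0 s hs).trans (Nat.le_succ _)
    · have h1 := hd s⁻¹ (s • y)
      rw [← hsm, inv_smul_smul] at h1
      rw [SimpleGraph.edist_comm]
      refine h1.trans ?_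
      exact_mod_cast (hc0 _ hs).trans (Nat.le_succ _)
  have hword : ∀ w : List G, (∀ s ∈ w, s ∈ S ∨ s⁻¹ ∈ S) → ∀ y : Y,
      Γ.edist y (w.prod • y) ≤ (((c0 + 1) * w.length : ℕ) : ℕ∞) := by
    intro w hw y
    induction w with
    | nil => simp
    | cons s w ih =>
      rw [List.prod_cons, mul_smul, List.length_cons, Nat.mul_succ, Nat.cast_add]
      refine (Γ.edist_triangle (v := w.prod • y)).trans ?_
      exact add_le_add (ih fun t ht => hw t (by simp [ht])) (hstep s (hw s (by simp)) _)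
  obtain ⟨c, hc, hgr⟩ := growth.{u, v} G hG S hS
  -- a radius at which the graph balls are too small
  obtain ⟨n, n₁, hn3, hnn, hnb⟩ : ∃ n n₁ : ℕ, 3 ≤ n ∧ (c0 + 1) * n ≤ n₁ ∧
      (b n₁ : ℝ) < c * ((n : ℝ) * Real.log n / Real.log (Real.log n)) := by
    have hc1 : (1 : ℝ) ≤ (c0 : ℝ) + 1 := by
      have : (0 : ℝ) ≤ c0 := Nat.cast_nonneg _
      linarith
    have hε : 0 < c / (16 * ((c0 : ℝ) + 1)) := by positivity
    obtain ⟨n₁, hb1, hn1⟩ := ((ho _ hε).and_eventually
      (eventually_ge_atTop (16 * (c0 + 1) ^ 2))).exists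
    have hdiv : (c0 + 1) * (n₁ / (c0 + 1)) ≤ n₁ := Nat.mul_div_le _ _
    have hlt : n₁ < (c0 + 1) * (n₁ / (c0 + 1) + 1) := Nat.lt_mul_div_succ _ (by omega)
    set n := n₁ / (c0 + 1) with hn
    have h16 : 16 * (c0 + 1) ≤ n := by
      rw [hn, Nat.le_div_iff_mul_le (by omega)]
      calc 16 * (c0 + 1) * (c0 + 1) = 16 * (c0 + 1) ^ 2 := by ring
        _ ≤ n₁ := hn1
    refine ⟨n, n₁, by omega, hdiv, ?_⟩
    have h16R : 16 * ((c0 : ℝ) + 1) ≤ n := by exact_mod_cast h16
    have hnR : (16 : ℝ) ≤ n := by linarith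
    have hltR : (n₁ : ℝ) < ((c0 : ℝ) + 1) * (n + 1) := by exact_mod_cast hlt
    have hdivR : ((c0 : ℝ) + 1) * n ≤ n₁ := by exact_mod_cast hdiv
    have hnn1 : (n : ℝ) ≤ n₁ := by nlinarith
    have hn1le : (n₁ : ℝ) ≤ 2 * ((c0 : ℝ) + 1) * n := by nlinarith
    have hn1sq : (n₁ : ℝ) ≤ n * n := by nlinarith
    have he : Real.exp 1 < 3 := by
      have := Real.exp_one_lt_d9
      linarith
    have hL1 : 1 < Real.log n := by
      rw [Real.lt_log_iff_exp_lt (by linarith)]
      linarith
    have hlog1 : Real.log n₁ ≤ 2 * Real.log n := by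
      have h1 : Real.log n₁ ≤ Real.log ((n : ℝ) * n) := Real.log_le_log (by linarith) hn1sq
      rw [Real.log_mul (by linarith) (by linarith)] at h1
      linarith
    have hlog0 : Real.log n ≤ Real.log n₁ := Real.log_le_log (by linarith) hnn1
    have hll : Real.log (Real.log n) ≤ Real.log (Real.log n₁) :=
      Real.log_le_log (by linarith) hlog0
    have hllpos : 0 < Real.log (Real.log n) := Real.log_pos hL1
    have h4 : (n₁ : ℝ) * Real.log n₁ / Real.log (Real.log n₁) ≤
        (2 * ((c0 : ℝ) + 1) * n) * (2 * Real.log n) / Real.log (Real.log n) := by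
      apply div_le_div₀ _ _ hllpos hll
      · positivity
      · exact mul_le_mul hn1le hlog1 (by linarith) (by positivity)
    have h5 : 0 < (n : ℝ) * Real.log n / Real.log (Real.log n) := by
      have : 0 < Real.log n := by linarith
      positivity
    calc (b n₁ : ℝ) ≤ c / (16 * ((c0 : ℝ) + 1)) *
          ((2 * ((c0 : ℝ) + 1) * n) * (2 * Real.log n) / Real.log (Real.log n)) :=
          hb1.trans (mul_le_mul_of_nonneg_left h4 hε.le)
      _ = (c / 4) * ((n : ℝ) * Real.log n / Real.log (Real.log n)) := by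
          field_simp
          ring
      _ < c * ((n : ℝ) * Real.log n / Real.log (Real.log n)) :=
          mul_lt_mul_of_pos_right (by linarith) h5
  -- all orbits are small
  have horb : ∀ y : Y, (MulAction.orbit G y).encard ≤ b n₁ := by
    intro y
    let y' : MulAction.orbit G y := ⟨y, MulAction.mem_orbit_self y⟩
    let Z : Set (MulAction.orbit G y) := {y'}
    have hsub : Subtype.val '' (nhd S Z n) ⊆ {z | Γ.edist y z ≤ (n₁ : ℕ∞)} := by
      rintro _ ⟨_, ⟨z, hz, w, h1, h2, rfl⟩, rfl⟩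
      have hz' : z = y' := hz
      rw [hz']
      have h3 := hword w h1 y
      refine h3.trans ?_
      exact_mod_cast (Nat.mul_le_mul_left (c0 + 1) h2).trans hnn
    have hcard : (nhd S Z n).encard ≤ b n₁ := by
      rw [← Subtype.val_injective.encard_image]
      exact (Set.encard_le_encard hsub).trans (hb y _)
    have huniv : nhd S Z n = Set.univ := by
      by_contra hne
      have h1 := hgr (MulAction.orbit G y) Z ⟨y', rfl⟩ n hn3 hne (b n₁)
        ((Set.encard_le_encard Set.diff_subset).trans hcard)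
      linarith
    rw [huniv] at hcard
    have h6 : (MulAction.orbit G y).encard =
        (Set.univ : Set (MulAction.orbit G y)).encard := by
      rw [Set.encard_univ]
      rfl
    rw [h6]
    exact hcard
  obtain ⟨N, h1, h2, h3⟩ := exists_kernel.{u, v} G (b n₁)
  refine range_finite_of_kernel ρ N h2 fun g hg => ?_
  ext1 y
  exact h3 Y y (horb y) g hg

end Vale.Agent.P192.H593
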